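import Vale.Agent.P354CQ.Defs
import Vale.Agent.P354YT.Mar
import Vale.Agent.P354CV.Bas
import Vale.Agent.P354XT.Calc

/-!
TZ: the lid function of the scaffold in the straight chart.
-/

set_option linter.all false

open scoped ContDiff
open Set Filter Topology

noncomputable section

namespace Vale.Agent.P354TS

open Vale.Agent.P354XG (E6)
open Vale.Agent.P354XD (pj)
open Vale.Agent.P354Z Vale.Agent.P354CQ Vale.Agent.P354YT
open Vale.Agent.P354YO (IsTh)
open Vale.Agent.P354XA (lo1 psi_deriv)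

variable {M a r : ℝ} {A B : ℝ → ℝ} {c : Pm}

/-- The difference of the times, and its derivative. -/
def ta (M : ℝ) (A : ℝ → ℝ) (r : ℝ) : ℝ := A r - 4 * M ^ 2 / r
def td (M a r : ℝ) : ℝ := hs M (M, a, r) - 1 + 4 * M ^ 2 / r ^ 2

theorem ta_d (h : IsTh M M a A B) (r0 : 0 < r) : HasDerivAt (ta M A) (td M a r) r :=
  ((h r).1.sub ((hasDerivAt_const r _).div (hasDerivAt_id r) r0.ne')).congr_deriv (by
    simp only [td, id]; ring)

theorem th_cd (M0 : 0 < M) (h : IsTh M M a A B) : ContDiff ℝ ∞ A :=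
  contDiff_infty_iff_deriv.2 ⟨fun r => (h r).1.differentiableAt, by
    rw [funext fun r => (h r).1.deriv]
    exact ((P354CV.hs_cd M0).comp (by fun_prop)).sub contDiff_const⟩

theorem td_far (M0 : 0 < M) (hr : 6 * M ≤ r) : td M a r = lo1 M a r := by
  rw [td, hs, P354Z.cut, P354XT.up_one (by linarith) hr, P354XT.dn_one (by linarith) (by linarith)]
  simp only [lo1, P354BF.De, P354R.Del]
  ring

theorem tau_ph (c : Pm) {x : E6} (hx : x ∈ P6) :
    c.tau (pj (ph M A B x)) = c.T (x.1 + ta M A x.2.1, x.2.1) := by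
  have n : (ph M A B x).2.2 ≠ 0 := fun e => hx.2 (Prod.ext
    ((mul_eq_zero.1 (congrArg Prod.fst e)).resolve_left (Complex.exp_ne_zero _))
    ((mul_eq_zero.1 (congrArg Prod.snd e)).resolve_left (Complex.exp_ne_zero _)))
  rw [Pm.tau_eq]
  dsimp only
  rw [P354XR.rd_pj (x := ph M A B x) hx.1 n]
  refine congrArg c.T (Prod.ext ?_ rfl)
  simp only [pj, ph, s6, ki, ta, Function.comp]
  ring

theorem td_ct (M0 : 0 < M) (r0 : 0 < r) : ContinuousAt (td M a) r :=
  have c1 : ContinuousAt (fun r => hs M (M, a, r)) r :=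
    ((P354CV.hs_on M0 M a).contDiffAt (Ioi_mem_nhds r0)).continuousAt
  (c1.sub continuousAt_const).add (continuousAt_const.div (continuousAt_id.pow 2)
    (pow_ne_zero 2 r0.ne'))

theorem td_bd (h : c.Ok) (z : ∀ r, deriv c.H r = 0) :
    ∃ L ≥ 0, ∀ r > c.r1, td c.M c.a r + c.n2 r ≤ L := by
  have M0 := h.M0
  obtain ⟨C, hC⟩ := (isCompact_Icc (a := c.r1) (b := c.R1)).bddAbove_image (f := td c.M c.a)
    fun r k => (td_ct M0 (h.r10.trans_le k.1)).continuousWithinAt
  refine ⟨max C 2, le_max_of_le_right two_pos.le, fun r k => ?_⟩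
  rcases le_total r c.R1 with j | j
  · rw [Pm.n2_zero j]
    linarith [hC ⟨r, ⟨k.le, j⟩, rfl⟩, le_max_left C 2]
  · have p : P354I.rp c.M c.a < r := by linarith [h.rpR]
    have q0 := qm_pos h.sub p
    have q1 := qm_le h.sub (show 10 * c.M ≤ r by linarith [h.R1])
    obtain ⟨s0, s1⟩ := st_mem (r - c.R1)
    rw [td_far M0 (by linarith [h.R1]), lo1_eq (Del_pos h.sub p).ne', Pm.n2, z]
    nlinarith [le_max_right C 2]

theorem tz_ok : TZ := by
  intro z A B hz hT
  have ok : ∀ Rs ≥ z.R1 + 1, (z.pm Rs (z.R1 + 2)).Ok := fun Rs k => (hz.ok Rs k _ le_rfl).1.1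
  obtain ⟨L, L0, hL⟩ := td_bd (ok _ le_rfl) fun r => deriv_const r 0
  refine ⟨L, fun Rs hR => ?_⟩
  have h := ok Rs hR
  set c := z.pm Rs (z.R1 + 2) with ec
  have M0 : 0 < z.M := h.M0
  have r0 : 0 < z.r1 := h.r10
  have R1 : 10 * z.M + 1 ≤ z.R1 := h.R1
  have e : ∀ p : ℝ × ℝ, 0 < p.2 → tz z A B Rs p = c.T (p.1 + ta z.M A p.2, p.2) := fun p k =>
    tau_ph _ (x := (p.1, p.2, 1, 0)) ⟨k, by simp⟩
  have ev : ∀ p : ℝ × ℝ, z.r1 < p.2 →
      tz z A B Rs =ᶠ[𝓝 p] fun p => c.T (p.1 + ta z.M A p.2, p.2) := fun p k =>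
    (continuous_snd.continuousAt.eventually_const_lt (r0.trans k)).mono e
  have fd : ∀ p : ℝ × ℝ, z.r1 < p.2 → ∀ x y, fderiv ℝ (tz z A B Rs) p (x, y) =
      c.tA (p.1 + ta z.M A p.2, p.2) * (x + td z.M z.a p.2 * y) +
        c.tR (p.1 + ta z.M A p.2, p.2) * y := fun p k x y => by
    have d := HasFDerivAt.comp p (f := fun p : ℝ × ℝ => (p.1 + ta z.M A p.2, p.2))
      (h.T_d (w := (p.1 + ta z.M A p.2, p.2)) k) ((hasFDerivAt_fst.add
        ((ta_d hT (r0.trans k)).comp_hasFDerivAt p hasFDerivAt_snd)).prodMk hasFDerivAt_snd)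
    rw [(ev p k).fderiv_eq, show fderiv ℝ (fun p : ℝ × ℝ => c.T (p.1 + ta z.M A p.2, p.2)) p = _
      from d.fderiv]
    simp [mul_comm y, mul_add]
  have fz_d : ∀ r > z.r1, HasDerivAt (fz z A) (td z.M z.a r + (c.n2 r - c.n1 r / (r - z.r1) ^ 2)) r :=
    fun r k => (ta_d hT (r0.trans k)).add (h.nu_d k)
  obtain ⟨κ, κ0, hκ⟩ : ∃ κ > 0, ∀ u, κ * √(1 + u ^ 2) ^ (-(101 / 100) : ℝ) ≤ deriv c.W u :=
    ⟨_, by have : (0 : ℝ) < c.s - 1 := sub_pos.2 h.s; have := h.M0; positivity,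
      fun u => (h.W_bd u).1⟩
  obtain ⟨k, hk⟩ : ∃ k, ∀ r ≥ 6 * z.M, ta z.M A r - P354XA.psi z.M z.a r = k :=
    ⟨_, fun r hr => const_of (f := fun r => ta z.M A r - P354XA.psi z.M z.a r) (fun x hx =>
      ((ta_d hT (by linarith)).sub (psi_deriv h.sub (lt_of_le_of_lt (P354XA.hor h.sub).2.2.2.1
        (by show 2 * z.M < x; linarith)))).congr_deriv (sub_eq_zero.2 (td_far M0 hx))) hr⟩
  have k0 : 0 < (1 + |k|) ^ (-(101 / 100) : ℝ) := by positivity
  refine ⟨min (1 / (2 * Rs + 2)) (κ / 2 * (1 + |k|) ^ (-(101 / 100) : ℝ)), ⟨fun p hp => ?_,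
    fun p h1 h2 => ?_, L0, fun r s h1 h2 _ => ?_, ?_, lt_min (by
      have : 0 < Rs := by linarith
      positivity) (by positivity), fun p hp => ?_, fun p hp => ?_⟩, fun Rb x hx => ?_⟩
  · have t : ContDiffAt ℝ ∞ (ta z.M A) p.2 :=
      (th_cd M0 hT).contDiffAt.sub (contDiffAt_const.div contDiffAt_id (r0.trans hp).ne')
    exact (ContDiffAt.comp (f := fun p : ℝ × ℝ => (p.1 + ta z.M A p.2, p.2)) p
      (h.T_cd (w := (p.1 + ta z.M A p.2, p.2)) hp) ((contDiffAt_fst.add
        (t.comp p contDiffAt_snd)).prodMk contDiffAt_snd)).congr_of_eventuallyEq (ev p hp)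
  · rw [e p (r0.trans h1), h.T_near (w := (p.1 + ta z.M A p.2, p.2)) h2]
    simp only [fz, ta, ec, Z1.pm, Pm.nu]
    ring
  · refine (convex_Ioi z.r1).image_sub_le_mul_sub_of_deriv_le
      (fun x k => (fz_d x k).continuousAt.continuousWithinAt)
      (fun x k => (fz_d x (interior_subset k)).differentiableAt.differentiableWithinAt)
      (fun x k => ?_) r h1 s (h1.trans_le h2) h2
    have k : z.r1 < x := interior_subset k
    have n := div_nonneg (Pm.n1_nonneg (c := c) k.le) (sq_nonneg (x - z.r1))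
    rw [(fz_d x k).deriv]
    exact le_trans (add_le_add_right (sub_le_self _ n) _) (hL x k)
  · exact ((ta_d hT r0).continuousAt.tendsto.mono_left nhdsWithin_le_nhds).add_atTop h.nu_top
  · rw [fd p hp]
    simp only [mul_zero, add_zero, mul_one]
    have p0 := r0.trans hp
    have t1 := h.tA_ge (p.1 + ta z.M A p.2, p.2)
    have b1 : 1 ≤ |p.1| + z.R1 := by linarith [abs_nonneg p.1]
    have w0 : 0 < (|p.1| + z.R1) ^ (-(101 / 100) : ℝ) := by positivity
    have w1 : (|p.1| + z.R1) ^ (-(101 / 100) : ℝ) ≤ 1 :=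
      Real.rpow_le_one_of_one_le_of_nonpos b1 (by norm_num)
    refine ⟨t1, ?_, ?_⟩
    · obtain ⟨u0, u1, u2⟩ := h.uw_le (p.1 + ta z.M A p.2 - P354XA.psi c.M c.a p.2)
      have := mul_le_mul (h.G_le' p0.le) ((h.W_le _).trans (mul_le_of_le_one_right
        (by linarith [h.s]) (u1.trans u2))) (h.W_pos _).le p0.le
      simp only [Pm.tA]
      rw [show c.s = 101 / 100 from rfl] at this
      linarith
    rcases le_total p.2 (2 * Rs + 2) with j | j
    · refine le_trans (mul_le_mul (min_le_left _ _) ((mul_le_of_le_one_right p0.le w1).trans j)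
        (by positivity) (by have : 0 < Rs := by linarith
                            positivity)) ?_
      rw [one_div, inv_mul_cancel₀ (by linarith)]
      exact t1
    · have e1 : p.1 + ta z.M A p.2 - P354XA.psi c.M c.a p.2 = p.1 + k := by
        rw [← hk p.2 (by linarith), add_sub_assoc]
        rfl
      have g1 : p.2 / 2 ≤ c.G p.2 := by
        have : p.2 - Rs - 1 ≤ c.G p.2 := Pm.G_ge (c := c) p.2
        linarith
      have s1 : √(1 + (p.1 + k) ^ 2) ≤ (1 + |k|) * (|p.1| + z.R1) := by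
        refine Real.sqrt_le_iff.2 ⟨by positivity, ?_⟩
        have a1 := abs_add_le p.1 k
        have a2 : 1 + |p.1 + k| ≤ (1 + |k|) * (|p.1| + z.R1) := by
          nlinarith [abs_nonneg p.1, abs_nonneg k]
        nlinarith [sq_abs (p.1 + k), abs_nonneg (p.1 + k)]
      have s2 := Real.rpow_le_rpow_of_nonpos (by positivity) s1
        (show (-(101 / 100) : ℝ) ≤ 0 by norm_num)
      rw [Real.mul_rpow (by positivity) (by positivity)] at s2
      have s3 := mul_le_mul g1 ((mul_le_mul_of_nonneg_left s2 κ0.le).trans (hκ _))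
        (by positivity) (Pm.G_nonneg _)
      simp only [Pm.tA, e1]
      refine (mul_le_mul_of_nonneg_right (min_le_right _ _) (by positivity)).trans ?_
      linarith
  · have p1 : z.r1 < p.2 := by linarith [show z.r1 < z.R1 from h.lt]
    obtain ⟨b, hb, -, e1⟩ := h.far_eq (w := (p.1 + ta z.M A p.2, p.2)) hp
    rw [fd p p1, e1, td_far M0 (by linarith), lo1_eq (M := z.M) (a := z.a) (Del_pos h.sub
      (show P354I.rp z.M z.a < p.2 by linarith [show P354I.rp z.M z.a < z.R1 - 1 / 2 from h.rpR])).ne']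
    simpa [show c.M = z.M from rfl, show c.a = z.a from rfl, mul_comm] using hb
  · rw [tau_ph _ hx, e _ hx.1]
    rfl

end Vale.Agent.P354TS
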