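import Vale.Agent.P354MG.Parts
import Vale.Agent.P354YO.Sh

/-!
The canonical lift of a map of the base.
-/

open scoped ContDiff
open Set Filter Topology Complex

noncomputable section

namespace Vale.Agent.P354TS

open Vale.Agent.P354n (R4)
open Vale.Agent.P354XG (E6)
open Vale.Agent.P354XD (pj nq nq_pos cd_pj)
open Vale.Agent.P354XE (rd eT)
open Vale.Agent.P354XO
open Vale.Agent.P354YI
open Vale.Agent.P354YO (rd_lip pr0)
open Vale.Agent.P354MG

theorem rr_rd (y : R4) : rr y = rd y := by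
  rw [P354XA.rd_eq, rr]
  simp only [P354XA.ip, sq]

/-- The lift as a function of the spinor and of the image. -/
def gl (w : (ℂ × ℂ) × R4) : E6 :=
  (w.2.1, rr w.2, ((2 * rr w.2)⁻¹ : ℝ) • (w.1.1 • (sN w.2).2.2 + w.1.2 • (sS w.2).2.2))

theorem gl_cd {w : (ℂ × ℂ) × R4} (h : rr w.2 ≠ 0) : ContDiffAt ℝ ∞ gl w := by
  have r : ContDiffAt ℝ ∞ (fun w : (ℂ × ℂ) × R4 => rr w.2) w := (cd_rr h).comp w contDiffAt_snd
  have c : ∀ {f : (ℂ × ℂ) × R4 → ℝ}, ContDiffAt ℝ ∞ f w → ContDiffAt ℝ ∞ (fun y => (f y : ℂ)) w :=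
    fun k => ofRealCLM.contDiff.contDiffAt.comp _ k
  have c1 := c (f := fun y => y.2.2.1) (by fun_prop)
  have c2 := (c (f := fun y => y.2.2.2.1) (by fun_prop)).mul (contDiffAt_const (c := I))
  have c3 : ContDiffAt ℝ ∞ (fun y : (ℂ × ℂ) × R4 => y.2.2.2.2) w := by fun_prop
  exact contDiffAt_snd.fst.prodMk (r.prodMk (((contDiffAt_const.mul r).inv
    (mul_ne_zero two_ne_zero h)).smul
      ((contDiffAt_fst.fst.smul ((c (r.add c3)).prodMk (c1.add c2))).add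
        (contDiffAt_fst.snd.smul ((c1.sub c2).prodMk (c (r.sub c3)))))))

theorem gl_pj {x : E6} (h : 0 < x.2.1) (h' : x.2.2 ≠ 0) (v : ℂ × ℂ) : gl (v, pj x) =
    sc ((v.1 * starRingEnd ℂ x.2.2.1 + v.2 * starRingEnd ℂ x.2.2.2) / nq x) x := by
  have r : (x.2.1 : ℂ) ≠ 0 := ofReal_ne_zero.2 h.ne'
  simp only [gl, sN_pj h h', sS_pj h h', rr_pj h h', sc_ap, smul_smul, ← add_smul]
  refine Prod.ext rfl (Prod.ext rfl ?_)
  rw [← coe_smul, smul_smul]
  congr 1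
  push_cast
  field_simp

theorem gl_id {x : E6} (h : 0 < x.2.1) (h' : x.2.2 ≠ 0) : gl (x.2.2, pj x) = x := by
  have n : (nq x : ℂ) ≠ 0 := ofReal_ne_zero.2 (nq_pos h').ne'
  rw [gl_pj h h', mul_conj, mul_conj, ← ofReal_add, show normSq x.2.2.1 + normSq x.2.2.2 = nq x
    from rfl, div_self n, sc_ap, one_smul]

theorem gl_pr (v : ℂ × ℂ) (y : R4) : gl (v, y) = gl (v, pr0 y) + (y.1, 0) :=
  Prod.ext (zero_add _).symm (add_zero _).symm

theorem gl_dif {u : E6} {q : R4} (e : gl (u.2.2, q) = u) (t : q.1 = u.1) (y : R4) (c : ℝ) :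
    gl (u.2.2, y) - u - (c, 0) =
      gl ((u.2.2, pr0 q) + (0, y - q - (c, 0))) - gl (u.2.2, pr0 q) := by
  have e2 : pr0 (pr0 q + (y - q - (c, 0))) = pr0 y := by ext <;> simp [pr0]
  have e3 : (pr0 q + (y - q - (c, 0))).1 = y.1 - u.1 - c := by simp [pr0, t]
  rw [gl_pr, t, ← eq_sub_iff_add_eq] at e
  rw [Prod.mk_add_mk, add_zero, gl_pr, gl_pr _ (_ + _), e2, e3, e]
  ext <;> simp
  ring

theorem ex_pj {y : R4} (h : 0 < rr y) : ∃ x : E6, 0 < x.2.1 ∧ x.2.2 ≠ 0 ∧ pj x = y := by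
  rcases le_total 0 y.2.2.2 with k | k
  · have e : rr y + y.2.2.2 ≠ 0 := by positivity
    exact ⟨sN y, h, fun z => e (ofReal_eq_zero.1 (congrArg Prod.fst z)), pj_sN e⟩
  · have e : rr y - y.2.2.2 ≠ 0 := (by linarith : 0 < rr y - y.2.2.2).ne'
    exact ⟨sS y, h, fun z => e (ofReal_eq_zero.1 (congrArg Prod.snd z)), pj_sS e⟩

theorem rd_near {p q : R4} {e : ℝ} (h : ‖(p - q).2‖ ≤ e) : |rd p - rd q| ≤ 2 * e :=
  (rd_lip (pr0 p) (pr0 q)).trans (by
    rw [← map_sub, show ‖pr0 (p - q)‖ = ‖(p - q).2‖ from by simp [pr0]]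
    linarith)

/-- The difference to the identity, without the shift of the time. -/
theorem oj_nid {J : Type} {φ : J → R4 → R4} {q : J → R4} {e : J → ℝ} {n : ℕ}
    (h : ∀ j, Nid n (φ j) (q j) (e j)) :
    Oj (n + 1) q (fun j y => φ j y - y - ((φ j (q j) - q j).1, 0)) e := by
  have s : ∀ j, ContDiffAt ℝ ∞ (fun y => φ j y - y - ((φ j (q j) - q j).1, 0)) (q j) := fun j =>
    ((h j).sm.sub contDiffAt_id).sub contDiffAt_const
  have d := Oj.of (fun j => (at_fd (h j).sm).sub contDiffAt_const) fun j => (h j).d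
  refine (Oj.zero s d.nn ⟨1, fun j => ?_⟩).succ (d.congr fun j => (ev_dif (h j).sm).mono
    fun y hy => ?_)
  · rw [one_mul, Prod.norm_def, Prod.fst_sub, sub_self, norm_zero, Prod.snd_sub, sub_zero]
    exact max_le (d.nn j) (h j).x
  · simp only [fderiv_sub_const, fderiv_fun_sub hy differentiableAt_fun_id, fderiv_fun_id]

theorem lift_est {r1 : ℝ} (h1 : 0 < r1) (ρ : ℝ) : ∃ C, 0 ≤ C ∧ ∀ φ e (x : E6), Nid 0 φ (pj x) e →
    e ≤ r1 / 4 → r1 ≤ x.2.1 → x.2.1 ≤ ρ → ‖x.2.2‖ = 1 →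
    Jb 1 (fun y => lft φ y - y - ((φ (pj x) - pj x).1, 0)) x (C * e) := by
  let J := {j : (R4 → R4) × ℝ × E6 // Nid 0 j.1 (pj j.2.2) j.2.1 ∧ j.2.1 ≤ r1 / 4 ∧
    r1 ≤ j.2.2.2.1 ∧ j.2.2.2.1 ≤ ρ ∧ ‖j.2.2.2.2‖ = 1}
  let x : J → E6 := fun j => j.1.2.2
  let P : E6 →L[ℝ] E6 := (ContinuousLinearMap.inr ℝ ℝ _).comp (.snd ℝ ℝ _)
  have p : ∀ j, 0 < (x j).2.1 := fun j => h1.trans_le j.2.2.2.1
  have n : ∀ j, (x j).2.2 ≠ 0 := fun j => norm_ne_zero_iff.1 (j.2.2.2.2.2.trans_ne one_ne_zero)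
  have a : Oj 1 x (fun _ y => pr0 (pj y)) 1 :=
    Oj.comp (f := fun _ => P) (fun _ => P.contDiff.contDiffAt) 1 (G := fun _ => pj)
      ((Oj.cst P).congr' fun _ _ => P.fderiv)
      (Oj.fix ((isCompact_singleton (x := (0 : ℝ))).prod ((isCompact_Icc (a := r1) (b := ρ)).prod
        (isCompact_sphere (0 : ℂ × ℂ) 1)))
        (fun y hy => cd_pj (norm_ne_zero_iff.1
          ((mem_sphere_zero_iff_norm.1 hy.2.2).trans_ne one_ne_zero)))
        fun j => ⟨rfl, ⟨j.2.2.2.1, j.2.2.2.2.1⟩, mem_sphere_zero_iff_norm.2 j.2.2.2.2.2⟩)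
  have i : Oj 1 x (fun j y => y - x j) 1 := Oj.idm ⟨0, by simp⟩
  have b : Oj 0 x (fun _ => fderiv ℝ pj) 1 :=
    ((a.add (i.clm ((ContinuousLinearMap.inl ℝ ℝ _).comp (.fst ℝ ℝ _)))).congr'
      (g := fun j y => pj y - ((x j).1, 0)) fun j y => by
        ext <;> simp [pr0, pj]).fd.congr' fun _ _ => (fderiv_sub_const _).symm
  have ψ := Oj.comp (fun j => cd_pj (n j)) 1 b (oj_nid fun j : J => j.2.1)
  have z : Oj 1 x (fun _ y => y.2.2) 1 := ((i.clm ((ContinuousLinearMap.snd ℝ ℝ _).comp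
    (.snd ℝ ℝ _))).add (Oj.const (v := fun j => (x j).2.2) i.nn
      ⟨1, fun j => by simpa using j.2.2.2.2.2.le⟩)).congr' (by simp)
  have w' := z.pair a
  have d := (Oj.const (v := fun _ => (0 : ℂ × ℂ)) ψ.nn ⟨0, by simp⟩).pair ψ
  have w := w'.add (d.wt (c := r1 / 4) w'.nn fun j => by simpa using j.2.2.1)
  obtain ⟨B, -, hB⟩ := w'.val
  have K : IsCompact (Metric.closedBall (0 : (ℂ × ℂ) × R4) (B + r1) ∩ {w | r1 / 2 ≤ rd w.2}) :=
    (isCompact_closedBall _ _).inter_right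
      (isClosed_le continuous_const (P354XA.rd_cont.comp continuous_snd))
  have l := Oj.lip w.sm w'.sm (S := fun _ => _) (ν := 1) (fun j u hu => ?_) 1 (G := fun _ => gl)
    w.fd w'.fd (d.congr' fun _ _ => add_sub_cancel_left _ _)
    (Oj.fix K (fun u hu => gl_cd (by rw [rr_rd]; exact ((half_pos h1).trans_le hu.2).ne'))
      fun j => j.2)
  · obtain ⟨C, c0, hC⟩ := l.bd
    refine ⟨C, c0, fun φ e y k1 k2 k3 k4 k5 => ?_⟩
    let j : J := ⟨(φ, e, y), k1, k2, k3, k4, k5⟩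
    refine ((hC j).mono le_rfl (by simp [j])).congr ?_
    filter_upwards [(isOpen_lt continuous_const continuous_snd.fst).mem_nhds (p j),
      (isOpen_ne.preimage continuous_snd.snd).mem_nhds (n j)] with u u1 u2
    exact gl_dif (gl_id u1 u2) rfl _ _
  · have k : u ∈ Metric.closedBall ((x j).2.2, pr0 (pj (x j))) (r1 / 4) :=
      (convex_closedBall _ _).segment_subset (by
        rw [mem_closedBall_iff_norm, add_sub_cancel_left, Prod.norm_def, norm_zero, Prod.norm_def,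
          Prod.fst_sub, sub_self, norm_zero, Prod.snd_sub, sub_zero]
        exact max_le (by positivity) (max_le (by positivity) (j.2.1.x.trans j.2.2.1)))
        (Metric.mem_closedBall_self (by positivity)) hu
    rw [mem_closedBall_iff_norm] at k
    have k1 := norm_sub_norm_le u ((x j).2.2, pr0 (pj (x j)))
    have k2 := abs_le.1 ((rd_lip u.2 (pr0 (pj (x j)))).trans
      (mul_le_mul_of_nonneg_left ((norm_snd_le _).trans k) zero_le_two))
    have k3 : rd (pr0 (pj (x j))) = (x j).2.1 := P354XR.rd_pj (p j) (n j)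
    have k4 := hB j
    have k5 : r1 ≤ (x j).2.1 := j.2.2.2.1
    rw [Pi.one_apply, mul_one] at k4
    exact ⟨mem_closedBall_zero_iff.2 (by linarith), show r1 / 2 ≤ rd u.2 by linarith [k2.1]⟩

theorem lift : LIFT := by
  refine ⟨fun φ x h h' e => (congrArg (fun y => gl (x.2.2, y)) e).trans (gl_id h h'),
    fun r1 ρ h1 => ?_⟩
  obtain ⟨C, c0, hC⟩ := lift_est h1 ρ
  have i : 0 < r1⁻¹ := inv_pos.2 h1
  refine ⟨C + 1 + r1⁻¹, by linarith, fun D φ e o e0 he hD hφ => ?_⟩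
  have s : e ≤ r1 / 4 := by
    have : r1 * (r1⁻¹ * e) = e := by field_simp
    nlinarith [mul_nonneg c0 e0]
  have c : C * e ≤ (C + 1 + r1⁻¹) * e := mul_le_mul_of_nonneg_right (by linarith) e0
  have p : ∀ x ∈ Om D, 0 < x.2.1 := fun x hx => h1.trans_le (hD _ hx.1).1
  have r : ∀ x ∈ Om D, 0 < rr (φ (pj x)) := fun x hx => by
    have := abs_le.1 (rd_near (hφ x hx).x)
    rw [P354XR.rd_pj (p x hx) hx.2] at this
    rw [rr_rd]
    linarith [this.1, (hD _ hx.1).1]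
  have sm : ∀ x ∈ Om D, ContDiffAt ℝ ∞ (lft φ) x := fun x hx =>
    at_comp (f := fun y : E6 => (y.2.2, φ (pj y))) (gl_cd (r x hx).ne')
      (contDiffAt_snd.snd.prodMk ((hφ x hx).sm.comp x (cd_pj hx.2)))
  have k := fun x (hx : x ∈ Om D) n =>
    (hC φ e x (hφ x hx) s (hD _ hx.1).1 (hD _ hx.1).2 n).mono le_rfl c
  have B : Box D (lft φ) 1 ((C + 1 + r1⁻¹) * e) ((C + 1 + r1⁻¹) * e) := by
    refine ⟨o, sm, fun x _ z hz => ?_, fun x hx n => ?_, fun x hx n => ?_, fun x hx n => ?_,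
      by norm_num, by positivity, he, by positivity, he⟩
    · simp only [lft, pj_sc hz]
      simp only [sc_ap, Prod.smul_fst, Prod.smul_snd, smul_eq_mul, mul_smul, ← smul_add]
      rw [smul_comm z]
    · refine le_of_eq_of_le ?_ (k x hx n).fd.zero
      rw [fderiv_sub_const, fderiv_fun_sub ((sm x hx).differentiableAt (by simp))
        differentiableAt_fun_id, fderiv_fun_id]
      congr 2
      ext <;> simp [dg]
    · simpa using ((norm_fst_le _).trans (norm_snd_le _)).trans (k x hx n).zero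
    · simpa using ((norm_snd_le _).trans (norm_snd_le _)).trans (k x hx n).zero
  refine ⟨B, fun x hx => ?_⟩
  obtain ⟨y, y1, y2, e⟩ := ex_pj (r x hx)
  have t : lft φ x = _ := (congrArg (fun y => gl (x.2.2, y)) e.symm).trans (gl_pj y1 y2 _)
  rw [t, pj_sc (fun z => B.xi_ne hx ?_), e]
  rw [t, z, sc_ap, zero_smul]

end Vale.Agent.P354TS
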