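import Vale.Agent.P354YM.G0
import Vale.Agent.P354LF.Lift
import Vale.Agent.P354YR.Kap

/-!
EXT2 from EXT, and the assembly of TRANS.
-/

set_option linter.all false

open scoped ContDiff
open Set Filter Topology

noncomputable section

namespace Vale.Agent.P354TS

open Vale.Agent.P354n (R4)
open Vale.Agent.P354I (X Dat rm rp)
open Vale.Agent.P354XE
open Vale.Agent.P354XU (IndAt)
open Vale.Agent.P354YM

theorem ext2 (h : EXT) (k : MIDK) : EXT2 := fun M a a0 hM => by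
  obtain ⟨s, hs, δ, hδ, h⟩ := h M a a0 hM
  refine ⟨s, hs, δ, hδ, fun r1 h1 θ0 h0 => ?_⟩
  obtain ⟨g0, hg, h⟩ := h r1 h1
  obtain ⟨θ, hθ, h⟩ := h θ0 h0
  refine ⟨θ, hθ, fun R0 => ?_⟩
  obtain ⟨R, hR, h⟩ := h R0
  refine ⟨R, hR, fun N ε hε => ?_⟩
  obtain ⟨m, η, hη, h⟩ := h N ε hε
  refine ⟨m, η, hη, fun d hd => ?_⟩
  obtain ⟨D, g, Xf, e, mid⟩ := h d hd
  choose Y q q' β h1' h2 using e.ends
  exact ⟨⟨D, g, Xf, Y, q, q', β⟩, e.lor, e.sub, e.ind, e.box, h1', h2,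
    k _ _ _ _ _ _ _ _ _ _ hM h1.1 hg e.lor e.sub mid⟩

variable {K S S' : Set R4} {g g' : Tw} {Xf X' b : R4 → R4} {n N N' : ℕ} {η η' M a r1 : ℝ}
  {x x0 p : R4} {y : X}

theorem emb_le (h : Emb K g Xf g' X' n η b) (k : η ≤ η') : Emb K g Xf g' X' n η' b :=
  ⟨h.sm, h.id, fun p hp i hi v w => (h.cl p hp i hi v w).trans
    (mul_le_mul_of_nonneg_right k (by positivity)), h.inj, h.fut, h.pos⟩

theorem ub_le {B c : ℝ} {τ : R4 → ℝ} (h : UB N B c g Xf τ p) (k : N' ≤ N) : UB N' B c g Xf τ p :=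
  ⟨fun i hi => h.bd i (hi.trans k), h.nd, h.sm, h.cone⟩

/-- The preimage of a point of the slice. -/
theorem emb_fix (h : Emb K g Xf g' X' n η b) (hp : p ∈ K) (h0 : 0 ≤ p.1) (e : b p = pt 0 y) :
    p = pt 0 y := by
  have z : p.1 = 0 := h0.eq_of_not_lt' fun k => (h.pos p hp k).ne' (by rw [e]; rfl)
  have k : pt 0 (xs p) = p := z ▸ pt_xs p
  rw [← e, ← k]
  exact (h.id (xs p) (k.symm ▸ hp)).self_of_nhds.symm

theorem kr_ct (h : xs p ≠ 0) : ContinuousAt (kr M a) p :=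
  (P354YR.s_kr (f := id) contDiffAt_id h).continuousAt

theorem sig_mem (h : r1 < rp M a) (hy : y ≠ 0) : pt 0 y ∈ D0 M a r1 :=
  ⟨(xs_pt 0 y).symm ▸ hy, le_rfl, by
    have := sq_nonneg (kx M a (pt 0 y))
    simp only [kr, pt] at this ⊢
    linarith⟩

theorem sig_tm {P : Pm} {d : Dat} {T : Tg} (h : T.Is P d) (hp : p ∈ D0 P.M P.a P.r1)
    (z : p.1 = 0) : Tm T.g T.Xf (fun x => x.1) p := by
  have := h.box p ⟨hp, .inl z⟩
  refine ⟨contDiffAt_fst, ?_, fun v v0 e => this.2 v v0 ?_⟩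
  · rw [fderiv_fst]
    exact this.1
  · rwa [fderiv_fst] at e

theorem cv_mem (h : Cv g Xf S x0 x) (k : x ∈ S) : x0 ∈ S := by
  induction h using Relation.ReflTransGen.head_induction_on with
  | refl => exact k
  | head h _ _ =>
    obtain ⟨γ, h0, -, h⟩ := h
    exact h0 ▸ (h 0 (left_mem_Icc.2 zero_le_one)).1

/-- Induction along the lift of a chain. -/
theorem cv_ind {Q : R4 → Prop} (hS : S ⊆ S') (hl : ∀ p ∈ K, ∀ x γ, Cu g Xf S' x (b p) γ →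
      ∃ γ' : ℝ → R4, ContinuousOn γ' (Icc 0 1) ∧ γ' 1 = p ∧
        ∀ s ∈ Icc (0 : ℝ) 1, γ' s ∈ K ∧ b (γ' s) = γ s)
    (h0 : ∀ p ∈ K, b p = x0 → Q p)
    (h1 : ∀ γ : ℝ → R4, ContinuousOn γ (Icc 0 1) → (∀ s ∈ Icc (0 : ℝ) 1, γ s ∈ K ∧ b (γ s) ∈ S) →
      Q (γ 0) → Q (γ 1)) (h : Cv g Xf S x0 x) : ∀ p ∈ K, b p = x → Q p := by
  induction h with
  | refl => exact h0
  | tail _ h ih =>
    obtain ⟨γ, e0, e1, h⟩ := h
    intro p hp e
    obtain ⟨γ', c, k1, k⟩ := hl p hp _ γ ⟨e0, e1.trans e.symm, fun s hs =>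
      ⟨hS (h s hs).1, (h s hs).2⟩⟩
    have z := k 0 (left_mem_Icc.2 zero_le_one)
    exact k1 ▸ h1 γ' c (fun s hs => ⟨(k s hs).1, (k s hs).2 ▸ (h s hs).1⟩)
      (ih _ z.1 (z.2.trans e0))

theorem trans (hE : EMB) (hU : UBD) (hD : DOD) (hP : PTH) (hA : LOCA) : TRANS := by
  intro M a r1 r0 r2 s δ B n
  obtain ⟨N, hE⟩ := hE (n + 3)
  obtain ⟨t1, hA⟩ := hA M a r1 r0 r2 s δ B n
  refine ⟨t1, fun L A cA sA e e0 => ?_⟩
  obtain ⟨-, b1, b2, b3⟩ := B.r1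
  have M0 := P354YR.M_pos B.lt
  have b4 : rp M a ≤ 2 * M := by
    have : √(M ^ 2 - a ^ 2) ≤ M := Real.sqrt_le_iff.2 ⟨M0.le, by linarith [sq_nonneg a]⟩
    simp only [rp]
    linarith
  have e1 : 0 < min ((r2 - r0) / 2) (M / 4) := lt_min (by linarith) (by linarith)
  refine (((((hA L A cA sA e e0).and (hA L A cA sA _ e1)).and (hU _ _ _ _ _ _ _ B)).and
    (hD _ _ _ _ _ _ _ B)).and ((hP _ _ _ _ _ _ _ B).and
    (evt_basic one_pos one_pos 0 N))).mono ?_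
  rintro θ R ε N' ⟨⟨⟨⟨hA, hA'⟩, hU⟩, hD⟩, hP, -, -, hN, -⟩ W g Xf τ V d q c Ω Φ Ψ E hR hS η η0
  obtain ⟨ηA, pA, hA⟩ := hA W g Xf τ V d q hR
  obtain ⟨ηB, pB, hA'⟩ := hA' W g Xf τ V d q hR
  obtain ⟨ηL, pL, hL⟩ := P354LF.lift W g Xf τ V d c Ω Φ Ψ E hR.lens hS
  have cK := hR.lens.cpt
  have nK : ∀ p ∈ KV W τ V, xs p ≠ 0 := fun p k => hR.lens.ne p k.1
  obtain ⟨ρ, hρ⟩ := cK.bddAbove_image (f := fun p => |Real.log (rd p)|) fun p k =>
    (rd_cont.continuousAt.log (P354YR.rd_pos (nK p k)).ne').abs.continuousWithinAt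
  obtain ⟨C1, c1, n1, hD⟩ := hD ρ
  have c2 := c1.union cK
  have n2 : ∀ p ∈ C1 ∪ KV W τ V, xs p ≠ 0 := fun p k => k.elim (n1 p) (nK p)
  set C0 := ((C1 ∪ KV W τ V) ∩ kr M a ⁻¹' Ici ((r0 + r2) / 2)) ∩ {x | 0 ≤ x.1} with eC
  have c0 : IsCompact C0 := (c2.of_isClosed_subset (ContinuousOn.preimage_isClosed_of_isClosed
    (fun p k => (kr_ct (n2 p k)).continuousWithinAt) c2.isClosed isClosed_Ici)
    inter_subset_left).inter_right (isClosed_le continuous_const continuous_fst)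
  obtain ⟨C2, c3, s2, s3⟩ := exists_compact_between (U := {x | xs x ≠ 0 ∧ r0 < kr M a x}) c0
    (isOpen_iff_mem_nhds.2 fun p k => inter_mem (P354YR.open_ne.mem_nhds k.1)
      ((kr_ct k.1).eventually_const_lt k.2))
    fun p k => ⟨n2 p k.1.1, by linarith [mem_Ici.1 (mem_preimage.1 k.1.2)]⟩
  have c4 := c3.inter_right (isClosed_le (f := fun _ : R4 => (0 : ℝ)) continuous_const
    continuous_fst)
  have s4 : ∀ p ∈ C2 ∩ {x : R4 | 0 ≤ x.1}, p ∈ D0 M a r1 ∧ r0 ≤ kr M a p := fun p k =>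
    ⟨⟨(s3 k.1).1, k.2, b1.trans (s3 k.1).2⟩, (s3 k.1).2.le⟩
  have s0 : C0 ⊆ C2 ∩ {x : R4 | 0 ≤ x.1} := fun p k => ⟨interior_subset (s2 k), k.2⟩
  obtain ⟨B', c', pc, hU⟩ := hU _ c4 s4
  obtain ⟨m, η', p', hE⟩ := hE W g Xf τ V d c Ω Φ Ψ E hR.lens hS C0 _ B' c'
    (min (min η ηL) (min ηA ηB)) c0 c4 (fun p k => mem_of_superset
      (mem_interior_iff_mem_nhds.1 (s2 k)) fun x k1 k2 => ⟨k1, k2⟩) pc (lt_min (lt_min η0 pL) (lt_min pA pB))
  refine ⟨m, η', p', fun d' T pd hT hJ => ?_⟩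
  obtain ⟨τ', hU⟩ := hU d' T hT
  have hZ : ∀ y ≠ 0, pt 0 y ∈ T.D ∧ Tm T.g T.Xf (fun p => p.1) (pt 0 y) := fun y hy =>
    have := sig_mem (M := M) (a := a) (b1.trans (b2.trans b3)) hy
    ⟨hT.sub this, sig_tm hT this rfl⟩
  have hL' := fun V' (hV : V' ≤ V) b (eb : Emb (KV W τ V') g Xf T.g T.Xf (n + 3)
      (min (min η ηL) (min ηA ηB)) b) (mb : MapsTo b (KV W τ V') (D0 M a r1)) =>
    hL V' hV T.g T.D T.Xf b hT.lor hZ (emb_le (eb.mono (Nat.zero_le _))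
      ((min_le_left _ _).trans (min_le_right _ _))) fun p k => ⟨hT.sub (mb k), (mb k).1⟩
  have sS : D0 M a r1 ⊆ {z ∈ T.D | xs z ≠ 0 ∧ 0 ≤ z.1} := fun z k => ⟨hT.sub k, k.1, k.2.1⟩
  obtain ⟨b, Ω', b', E', eb, mb, ro, ag⟩ := hE T.g T.D T.Xf d' τ' hT.lor pd
    (fun p k => hT.sub (s4 p k).1)
    (fun p k => ⟨ub_le (hU p k) hN, sig_tm hT (s4 p k).1⟩)
    (fun y k => ⟨⟨⟨.inr k, le_trans (by linarith) (hR.sub _ k).2⟩, k.2.1⟩,
      mem_of_superset (isOpen_compl_singleton.mem_nhds (xs_pt 0 y ▸ nK _ k)) fun z hz => hT.ind z hz,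
      hJ y k⟩) (fun V' hV b eb mb p hp => by
    have m0 : MapsTo b (KV W τ V') (D0 M a r1) := fun p k => (s4 _ (mb k)).1
    have l := (hL' V' hV b eb m0).2
    have r := (hA' V' hV d' T b hT (emb_le eb ((min_le_right _ _).trans (min_le_right _ _))) m0).1
    refine ⟨⟨.inl ?_, ?_⟩, (mb hp).2⟩
    · by_contra k
      obtain ⟨y, y0, y1, y2⟩ := hD d' T hT _ (m0 hp) (s4 _ (mb hp)).2 k
      have := cv_ind (Q := fun _ => pt 0 y ∈ KV W τ V') sS l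
        (fun p k e => emb_fix eb k k.2.1 e ▸ k) (fun _ _ _ k => k) y2 p hp rfl
      have := hρ ⟨_, kv_mono hV this, rfl⟩
      simp only [rd, xs_pt] at this
      exact y1.not_ge this
    · by_contra k
      have k : kr M a (b p) < (r0 + r2) / 2 := not_le.1 k
      obtain ⟨y, y0, y2⟩ := hP d' T hT _ (m0 hp) (s4 _ (mb hp)).2 (by linarith)
      have y3 := (cv_mem y2 ⟨m0 hp, by linarith⟩).2
      have := cv_ind (Q := fun p => kr M a p ≤ 4 * M) (fun z k => sS k.1) l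
        (fun p k e => by rw [emb_fix eb k k.2.1 e]; linarith) (fun γ c h h0 => by
          by_contra! h1
          obtain ⟨t, ht, e⟩ := intermediate_value_Icc zero_le_one (f := fun t => kr M a (γ t))
            (fun t ht => (kr_ct (nK _ (kv_mono hV (h t ht).1))).comp_continuousWithinAt (c t ht))
            ⟨h0, h1.le⟩
          have := (abs_le.1 (r _ (h t ht).1 e.le)).1
          linarith [(h t ht).2.2, min_le_right ((r2 - r0) / 2) (M / 4), show kr M a (γ t) = _ from e])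
        y2 p hp rfl
      have h2 := (abs_le.1 (r p hp this)).1
      have h3 : r2 ≤ kr M a p := (hR.sub p (kv_mono hV hp)).2
      linarith [min_le_left ((r2 - r0) / 2) (M / 4)])
  have m0 : MapsTo b (KV W τ (V - 1)) (D0 M a r1) := fun p k => (s4 _ (s0 (mb k))).1
  have hV : V - 1 ≤ V := sub_le_self _ zero_le_one
  have r := (hA _ hV d' T b hT (emb_le eb ((min_le_right _ _).trans (min_le_left _ _))) m0).2
  exact ⟨b, Ω', b', E', emb_le (eb.mono (Nat.le_add_right _ _))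
    ((min_le_left _ _).trans (min_le_left _ _)), m0, (hL' _ hV b eb m0).1, ro, ag, r⟩

end Vale.Agent.P354TS
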