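import Vale.Agent.P354TS.Ex0D
import Vale.Agent.P354XM.Kin

/-!
EX0: the exit for the rays of Kerr.
-/

open scoped ContDiff
open Set Filter Topology Matrix

noncomputable section

namespace Vale.Agent.P354TS

open Vale.Agent.P354n (R4)
open Vale.Agent.P354H (X3)
open Vale.Agent.P354XE (rd xs pt Par)
open Vale.Agent.P354XA (hor xs_pt linL lin_fst)
open Vale.Agent.P354XM (sh rd_sh sh_cd)
open Vale.Agent.P354SA (Y2 E5 Ph kv dη xp ey e1 Tq Th et ps Fq)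
open Vale.Agent.P354SM (Sp Sq Ez zz tu Zq EX0)
open Vale.Agent.P354YQ (SA JB JD)
open ContinuousLinearMap (fst snd inr)

/-- The state which belongs to a position on a level set of E. -/
def Yx (E : X3 → ℝ) (Z : R4 → X3) (z : R4) : E5 := ((Z z).1, (Z z).2, PP E (Z z))

theorem sq_open (s : ℝ) : IsOpen (Sq s) :=
  (isOpen_lt continuous_snd.fst.abs continuous_const).and ((isOpen_lt continuous_snd.snd.norm
    continuous_const).and (isOpen_lt (continuous_fst.sub continuous_const).abs continuous_const))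

theorem sp_sq {s : ℝ} {z : R4} (h : z ∈ Sp s) : z ∈ Sq s :=
  ⟨abs_lt.2 ⟨by linarith [h.1.1.1], by linarith [h.1.1.2]⟩, by linarith [h.1.2], by linarith [h.2]⟩

theorem ez_of {E : X3 → ℝ} {Z : R4 → X3} {κ T1 Ce D C r2 s2 : ℝ} (hκ : κ ∈ Icc (1 / 4 : ℝ) 4)
    (e1' : 1 ≤ Ce) (d1 : 1 ≤ D) (c1 : 4 * Ce * D ≤ C)
    (h : ∀ z ∈ Sq s2, ContDiffAt ℝ ∞ Z z ∧ E (Z z) = z.1 + κ * z.2.1 - T1 ∧ SA E (Z z) ∧
      fderiv ℝ E (Z z) (1, 0, 0) ∈ Icc 1 Ce ∧ JB 1 (PP E) (Z z) Ce ∧ |(Z z).1 - r2| ≤ C ∧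
      ‖(Z z).2‖ ≤ C ∧ (‖z.2.2‖ ≤ 1 / 2 → C⁻¹ ≤ 1 - (Z z).2.1 ^ 2 - (Z z).2.2 ^ 2) ∧
      ∀ z' ∈ Sq s2, z.1 = z'.1 → ‖Z z - Z z'‖ ≤ D * ‖z.2 - z'.2‖ ∧
        (z.2.1 = z'.2.1 → ‖z.2.2 - z'.2.2‖ ≤ C * ‖(Z z).2 - (Z z').2‖)) :
    Ez C r2 s2 (Yx E Z) := fun z hz => by
  have m := sp_sq hz
  have ev := (sq_open s2).eventually_mem m
  obtain ⟨-, -, sE, er, jb, hr, hη, hp, lip⟩ := h z m
  have sZ : SA Z z := ev.mono fun y hy => (h y hy).1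
  have dZ := sZ.diff.hasFDerivAt
  have fd : ∀ w, fderiv ℝ (Ph (Yx E Z)) z w = (w.1, fderiv ℝ Z z w) := fun w => by
    rw [show fderiv ℝ (Ph (Yx E Z)) z = _ from (hasFDerivAt_fst.prodMk dZ).fderiv]
    rfl
  have e0 : 0 < fderiv ℝ E (Z z) (1, 0, 0) := one_pos.trans_le er.1
  have hk : ∀ w, kv (Yx E Z) w z = (w.1 + κ * w.2.1) / fderiv ℝ E (Z z) (1, 0, 0) := fun w => by
    have a := DFunLike.congr_fun ((sE.diff.hasFDerivAt.comp z dZ).unique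
      (((hasFDerivAt_fst.add (hasFDerivAt_snd.fst.const_mul κ)).sub_const T1).congr_of_eventuallyEq
        (ev.mono fun y hy => (h y hy).2.1))) w
    have b : ∀ ξ : X3, ξ = ξ.1 • (1, 0, 0) + ξ.2.1 • (0, 1, 0) + ξ.2.2 • (0, 0, 1) := by simp
    rw [ContinuousLinearMap.comp_apply, b (fderiv ℝ Z z w), map_add, map_add, map_smul, map_smul,
      map_smul] at a
    rw [kv, fd, eq_div_iff e0.ne']
    simp [xp, P354RC.cv, Yx, PP] at a ⊢
    field_simp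
    linarith
  have Ce0 : Ce ≤ Ce * D := le_mul_of_one_le_right (by linarith) d1
  have i : HasFDerivAt (fun x : X3 => ((z.1, x) : R4)) (inr ℝ ℝ X3) z.2 :=
    hasFDerivAt_prodMk_right z.1 z.2
  have ev2 := i.continuousAt.eventually (p := (· ∈ Sq s2)) ev
  refine ⟨(sZ.clm (fst ℝ ℝ Y2)).prod ((sZ.clm (snd ℝ ℝ Y2)).prod (jb.sm.comp sZ)), fun a => ?_,
    ?_, hr, max_le hη (jb.zero.trans (by linarith)), fun y => ?_, ?_, hp,
    fun y hy => (lip _ (sp_sq hy) rfl).2 rfl⟩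
  · fin_cases a <;> simp [hk, ey]
  · rw [hk, e1, zero_add, mul_one]
    refine ⟨?_, (div_le_self (by linarith [hκ.1]) er.1).trans (by nlinarith [hκ.2])⟩
    rw [le_div_iff₀ e0, inv_mul_le_iff₀ (by linarith)]
    nlinarith [hκ.1, er.2]
  · have j : HasFDerivAt (fun y : Y2 => ((z.2.1, y) : X3)) (inr ℝ ℝ Y2) z.2.2 :=
      hasFDerivAt_prodMk_right z.2.1 z.2.2
    rw [dη, fd]
    exact le_fd (HasFDerivAt.comp (f := fun y : Y2 => ((z.1, z.2.1, y) : R4)) z.2.2 dZ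
      (i.comp z.2.2 j)).snd ((j.continuousAt.eventually ev2).mono fun y' hy =>
        (lip _ hy rfl).2 rfl) y
  · have s : SA (fun x : X3 => Z (z.1, x)) z.2 :=
      SA.comp (f := fun x : X3 => ((z.1, x) : R4)) sZ (SA.of (by fun_prop))
    have a : JD 1 (fun x : X3 => Z (z.1, x)) z.2 D := ⟨s, fun n h1 h2 => by
      obtain rfl := le_antisymm h2 h1
      rw [norm_iteratedFDeriv_one]
      exact s.diff.hasFDerivAt.le_of_lip' (by linarith) (ev2.mono fun x hx => by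
        rw [norm_sub_rev, norm_sub_rev x]
        exact (lip _ hx rfl).1)⟩
    have b : JD 1 (fun ξ : X3 => ((ξ.1, ξ.2, PP E ξ) : E5)) (Z (z.1, z.2)) Ce :=
      ((JD.lin (fst ℝ ℝ Y2)).mono ((ContinuousLinearMap.norm_fst_le ..).trans e1')).prod
        (((JD.lin (snd ℝ ℝ Y2)).mono ((ContinuousLinearMap.norm_snd_le ..).trans e1')).prod jb.jd)
    exact (JD.comp (f := fun x : X3 => Z (z.1, x)) b a d1 (by linarith)).mono
      (by simp; nlinarith)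

theorem tq_eq {q : Par} {σ : Bool} {p : R4} (h : q.Rᵀ * q.R = 1) (l : q.l ≠ 0)
    (g : Gd σ (P354YM.inv q p)) {T s r : ℝ} (hr : rd (P354YM.inv q p) = r)
    (e : T - s + Fq q.M q.a r = p.1 / q.l) :
    p = Tq q σ T (s, r, et q.M q.a σ (P354YM.inv q p)) := by
  have a := g.xs_eq q.M q.a
  rw [hr] at a
  rw [Tq, Function.comp_apply, Th, e, ← a, P354YM.inv, xs_pt, Par.lin, xs_pt, mulVec_mulVec,
    mul_eq_one_comm.1 h, one_mulVec]
  exact Prod.ext (mul_div_cancel₀ _ l).symm rfl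

theorem ex0 : EX0 := by
  intro M a k ε1 C0 s1 r1 H b σ Ψ S ⟨ha, ε0, c0, _, hr, hR⟩
  have M0 := (hor ha).1
  obtain ⟨ρ, ρ1, ρ2⟩ : ∃ ρ, r1 + 1 ≤ ρ ∧ 24 * C0 * (C0 + (M + 1 / 3)) ≤ ρ ^ 2 := by
    have : 0 ≤ 24 * C0 * (C0 + (M + 1 / 3)) := by positivity
    exact ⟨r1 + 1 + 24 * C0 * (C0 + (M + 1 / 3)), by linarith, by nlinarith⟩
  obtain ⟨Ce, e1, hE⟩ := eb σ (M + 1 / 3) (2 * (1 + 2 * C0 ^ 2)) C0 ρ
  have k0 : 1 ≤ C0 ^ 2 := one_le_pow₀ c0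
  have d1 : 1 ≤ 48 * C0 ^ 2 * (1 + 2 * (2 * (1 + 2 * C0 ^ 2)) ^ 2) :=
    one_le_mul_of_one_le_of_one_le (by linarith) (le_add_of_nonneg_right (by positivity))
  generalize hD : 48 * C0 ^ 2 * (1 + 2 * (2 * (1 + 2 * C0 ^ 2)) ^ 2) = D at d1
  obtain ⟨C, C1, C2, C3⟩ : ∃ C, 4 * Ce * D ≤ C ∧ 24 + 4 * C0 ≤ C ∧
      9 * C0 * (1 + 2 * C0 ^ 2) ≤ C :=
    ⟨max _ (max _ _), le_max_left _ _, le_max_of_le_right (le_max_left _ _),
      le_max_of_le_right (le_max_right _ _)⟩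
  have C4 : 2 * (1 + 2 * C0 ^ 2) ≤ C := by nlinarith
  obtain ⟨ε, p0, p1, p2, p3, p4⟩ : ∃ ε > 0, ε ≤ ε1 ∧ ε ≤ 1 / 10 ∧ ε ≤ (M - |a|) / 2 ∧
      ε ≤ 1 / (1 + 2 * C0 ^ 2) / 4 :=
    ⟨min _ (min _ (min _ _)), lt_min ε0 (lt_min (by norm_num) (lt_min (by linarith)
      (by positivity))), min_le_left _ _, min_le_of_right_le (min_le_left _ _),
      min_le_of_right_le (min_le_of_right_le (min_le_left _ _)),
      min_le_of_right_le (min_le_of_right_le (min_le_right _ _))⟩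
  refine ⟨C, by linarith, ρ + 25 + 4 * C0, ε, p0, ?_⟩
  rintro r2 h2 q q' hq hq' s hs c φ T0 s2 ψ Λ rfl e2 hΛ
  have nr : ∀ q : Par, q.Near M a ε → |q.a| < q.M ∧ q.M ≤ M + 1 / 3 ∧ q.l ∈ Icc (9 / 10) (11 / 10) :=
    fun q h => by
      have := abs_lt.1 h.1
      have := abs_lt.1 h.2.2.1
      have := abs_sub_abs_le_abs_sub q.a a
      exact ⟨by linarith [h.2.1], by linarith, by linarith, by linarith⟩
  have ref := hR (P354YM.pp M q) (by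
    simp only [P354YM.pp, Metric.mem_closedBall, Prod.dist_eq, Real.dist_eq, max_le_iff, sub_self,
      abs_zero]
    exact ⟨hq.1.le.trans p1, hq.2.1.le.trans p1, ε0.le⟩) s hs
  obtain ⟨O, o1, o2⟩ := ex_iso hq hq' φ
  obtain ⟨c1, c', hc, ek⟩ := ref.eik
  obtain ⟨-, -, l1, l2⟩ := nr q hq
  obtain ⟨a', m', l1', l2'⟩ := nr q' hq'
  have l0 : 0 < q'.l := by linarith
  have ax : ∀ ρ ≥ r1, Ax (M, a, M) k ε1 C0 s1 r1 H b σ Ψ S (P354YM.pp M q, s) (M + 1 / 3) ρ q'.M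
      q'.a (q.l / q'.l) c1 (T0 - q.l / q'.l * c') (fun p => P354YM.inv q' (q.lin (sh c φ p))) O
      fun w => tu q q' T0 (Ψ (P354YM.pp M q, s) w) := fun ρ hρ =>
    ⟨⟨ref, (nr q hq).1, (nr q hq).2.1, by linarith, hρ, c0⟩, a', m',
      ⟨by rw [le_div_iff₀ l0]; linarith, by rw [div_le_iff₀ l0]; linarith⟩, hc, o2 c,
      by linarith, by
        have e : P354YM.inv q' = Par.lin ⟨0, 0, q'.l⁻¹, q'.Rᵀ⟩ := funext fun p => by
          rw [P354YM.inv, div_eq_inv_mul]; rfl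
        rw [e]
        exact (linL _).contDiff.comp ((linL q).contDiff.comp (sh_cd c φ)),
      fun w h1 h2 => by
        rw [un_two, tu, show Fq = P354XA.psi from rfl]
        linear_combination q.l / q'.l * ek w h1 h2⟩
  generalize hx : (P354YM.pp M q, s) = x at *
  have A1 := ax r1 le_rfl
  have A := ax ρ (by linarith)
  have hb : ∀ z ∈ Sq s2, |rd (Ψ x (Λ z)) - r2| ≤ 24 + 4 * C0 := fun z hz => by
    obtain ⟨-, e, s', t⟩ := hΛ z hz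
    have m : Λ z ∈ Wr s1 r1 r1 := ⟨e ▸ hz.2.1.le, by linarith⟩
    have m' : ((s1 + 2 * (r2 - r1), 0) : R4) ∈ Wr s1 r1 r1 := ⟨by simp, by simp; linarith⟩
    have d := A1.D3 m m'
    have u := (norm_sub_le (un (Ψ x (Λ z))) (un (Ψ x (s1 + 2 * (r2 - r1), 0)))).trans_eq
      (by rw [un_norm (A1.rx.r0 m), un_norm (A1.rx.r0 m')])
    rw [A1.rx.r_eq m', t, ← e2, e, show r1 + (s1 + 2 * (r2 - r1) - s1) / 2 = r2 by ring,
      Prod.fst_zero, sub_zero] at d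
    nlinarith [hz.1, hz.2.2]
  have hρ : ∀ z ∈ Sq s2, ρ < rd (Ψ x (Λ z)) := fun z hz => by linarith [(abs_le.1 (hb z hz)).1]
  have hw : ∀ z ∈ Sq s2, Λ z ∈ Wr s1 r1 ρ := fun z hz => by
    obtain ⟨-, e, s', t⟩ := hΛ z hz
    have m : ‖(Λ z).2.2‖ ≤ 9 := e ▸ hz.2.1.le
    exact ⟨m, by linarith [hρ z hz, ref.rad _ m s'.le]⟩
  refine ⟨Yx (EE0 (q.l / q'.l) q'.M q'.a σ (O e3) fun y => S (x.1, y)) fun z => Zw q'.M q'.a σ
    (fun p => P354YM.inv q' (q.lin (sh c φ p))) (Ψ x (Λ z)), ez_of (κ := q.l / q'.l * c1)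
      (T1 := T0 - q.l / q'.l * c') ⟨by nlinarith [A.hl.1, hc.1], by nlinarith [A.hl.2, hc.1, hc.2]⟩
      e1 d1 C1 fun z hz => ?_, funext fun z => Prod.ext (rd_sh ..).symm rfl, fun z hz =>
        ⟨(hb z hz).trans C2, (A.et_le (hw z hz)).trans C4, tq_eq hq'.2.2.2.1 l0.ne' (A.gd (hw z hz))
          (A.rd_L _) ?_⟩⟩
  · obtain ⟨s', e, -, t⟩ := hΛ z hz
    have T := A.rx.hT _ (A.rx.hρ.trans (A.rx.r_ge (hw z hz))) _ (un_abs (A.rx.r0 (hw z hz)))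
    rw [← A.zt_eq (hw z hz)] at T
    let j : Ej σ (M + 1 / 3) (2 * (1 + 2 * C0 ^ 2)) C0 ρ := ⟨_, _, _, O e3, fun y => S (x.1, y),
      Zw q'.M q'.a σ (fun p => P354YM.inv q' (q.lin (sh c φ p))) (Ψ x (Λ z)), a', m', A.hl, by
      rw [O.norm_map, e3]; simp [EuclideanSpace.norm_eq, Fin.sum_univ_three],
      ⟨by linarith, by nlinarith⟩, hρ z hz, A.et_le (hw z hz), T.1, T.2⟩
    refine ⟨(A.Z_cd (hw z hz)).comp z s'.at, by rw [A.EE_eq (hw z hz), t, e], j.sa,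
      ⟨j.er, (hE j).1⟩, (hE j).2, (hb z hz).trans C2, (A.et_le (hw z hz)).trans C4,
      fun y => (inv_anti₀ (by positivity) (by linarith)).trans (A.pole (hw z hz)
        (e ▸ y.trans (by norm_num))), fun z' hz' e1 => ?_⟩
    obtain ⟨-, e', -, t'⟩ := hΛ z' hz'
    have τ := t.trans (e1.trans t'.symm)
    rw [← e, ← e', ← hD]
    exact ⟨A.lip ρ2 (hw z hz) (hw z' hz') τ, fun v => (A.anti ρ2 (hw z hz) (hw z' hz') τ v).trans
      (mul_le_mul_of_nonneg_right C3 (norm_nonneg _))⟩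
  · rw [← (hΛ z hz).2.2.2, tu, lin_fst]
    simp only [sh, Yx, Zw]
    ring

end Vale.Agent.P354TS
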