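import Vale.Agent.P354TS.Lift
import Vale.Agent.P354TF.Geo
import Vale.Agent.P354NK.Km
import Vale.Agent.P354YI.Met
import Vale.Agent.P354XT.Calc

/-!
The factor of the affine parameter is almost constant.
-/

set_option maxSynthPendingDepth 3

open scoped ContDiff
open Set Filter Topology

noncomputable section

namespace Vale.Agent.P354TS

open Vale.Agent.P354n (R4)
open Vale.Agent.P354R (Del)
open Vale.Agent.P354RC (B2)
open Vale.Agent.P354XD (tb)
open Vale.Agent.P354XE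
open Vale.Agent.P354XA
open Vale.Agent.P354YI
open Vale.Agent.P354YO
open Vale.Agent.P354TF (rot nv sh_fd gin_sh dr_nv Om_cd)
open Vale.Agent.P354MG

variable {M0 M a : ℝ} {A B : ℝ → ℝ} {p : R4}

theorem dr_bd (p v : R4) : |dr p v| ≤ 2 * ‖v‖ := by
  have a := (le_abs_self _).trans (rd_lip v 0)
  rw [sub_zero, show rd 0 = 0 by simp [rd_eq, ip], sub_zero] at a
  rw [dr_eq, abs_div, abs_of_nonneg (rd_nonneg p), ← inn]
  exact div_le_of_le_mul₀ (rd_nonneg p) (by positivity) ((abs_real_inner_le_norm _ _).trans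
    ((mul_le_mul_of_nonneg_left a (rd_nonneg p)).trans_eq (mul_comm _ _)))

theorem inv_near {D : R4 →L[ℝ] R4} (h : ‖D - ContinuousLinearMap.id ℝ R4‖ ≤ 1 / 2) :
    D.IsInvertible ∧ ‖D.inverse‖ ≤ 2 := by
  have k : ∀ v, ‖v‖ ≤ 2 * ‖D v‖ := fun v => by
    have e := (D - ContinuousLinearMap.id ℝ R4).le_of_opNorm_le h v
    have := norm_sub_norm_le v (D v)
    rw [norm_sub_rev] at this
    change ‖D v - v‖ ≤ _ at e
    linarith
  have i : Function.Injective D := (injective_iff_map_eq_zero D).2 fun v e => by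
    simpa [e] using k v
  have j : D.IsInvertible := ⟨(LinearEquiv.ofInjectiveEndo (D : R4 →ₗ[ℝ] R4) i
    ).toContinuousLinearEquiv, ContinuousLinearMap.ext fun _ => rfl⟩
  exact ⟨j, D.inverse.opNorm_le_bound zero_le_two fun v => by
    simpa [j.self_apply_inverse] using k (D.inverse v)⟩

theorem oj_rcp {J E : Type} [NormedAddCommGroup E] [NormedSpace ℝ E] {x : J → E} {f : J → E → ℝ}
    {m : ℕ} {c : ℝ} (hc : 0 < c) (h : Oj m x f 1) (l : ∀ j, c ≤ f j (x j)) :
    Oj m x (fun j y => (f j y)⁻¹) 1 := by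
  obtain ⟨C, -, hC⟩ := h.val
  have k : Oj m (fun j => f j (x j)) (fun _ (t : ℝ) => t⁻¹) 1 :=
    Oj.fix (isCompact_Icc (a := c) (b := C)) (fun t ht => contDiffAt_inv ℝ (hc.trans_le ht.1).ne')
      fun j => ⟨l j, (le_abs_self _).trans ((hC j).trans_eq (mul_one _))⟩
  cases m with
  | zero => exact .zero (fun j => at_comp (k.sm j) (h.sm j)) k.nn (k.val.imp fun _ h => h.2)
  | succ m => exact Oj.comp h.sm (m + 1) h.fd k

/-- The outgoing field minus the radial field, and the derivative of st4 up to the rotation. -/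
def wo (M a : ℝ) (p : R4) : R4 := lo1 M a (rd p) • eT + (2 * a / Del M a (rd p)) • Om 2 p
def lo (M a : ℝ) (p : R4) : R4 →L[ℝ] R4 :=
  ContinuousLinearMap.id ℝ R4 + (fderiv ℝ rd p).smulRight (wo M a p)

theorem lo_ap (h : rd p ≠ 0) (v : R4) : lo M a p v = v + dr p v • wo M a p := by
  simp [lo, rd_fd h]

theorem dr_er (h : rd p ≠ 0) : dr p (er4 p) = 1 := by
  have := dr_nv h 0
  rwa [zero_smul, zero_add] at this

theorem kS_far (h0 : 0 < M0) (t : IsTh M0 M a A B) (hM : M ≤ 3 / 2 * M0) (hr : 6 * M0 ≤ rd p)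
    (v w : R4) : kS M0 M a A B p v w = gin M a p (lo M a p v) (lo M a p w) := by
  have r : 0 < rd p := by linarith
  have c : P354Z.cut M0 (M, a, rd p) = 1 := by
    rw [P354Z.cut, P354XT.up_one (by linarith) hr, P354XT.dn_one (by linarith) hM, one_mul]
  have a1 : HasDerivAt (fun r => A r - 4 * M0 ^ 2 / r) (lo1 M a (rd p)) (rd p) :=
    ((t (rd p)).1.sub ((hasDerivAt_const _ _).div (hasDerivAt_id (rd p)) r.ne')).congr_deriv (by
      simp only [P354Z.hs, c, lo1, P354BF.De, Del, id]; ring)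
  have a2 : HasDerivAt B (2 * a / Del M a (rd p)) (rd p) := (t _).2.congr_deriv (by
    simp only [P354Z.js, c, P354BF.De, Del]; ring)
  have e : ∀ v, fderiv ℝ (st4 M0 A B) p v = rot (B (rd p)) (lo M a p v) := fun v => by
    rw [st4, sh_fd r.ne' a1 a2, lo_ap r.ne']
    ext <;> simp [rot, wo, eT, Om, sh] <;> ring
  rw [kS, pb, e, e, st4, gin_sh]

theorem lo_er (h : rd p ≠ 0) : lo M a p (er4 p) = Lo M a p ∧ lo M a p eT = eT := by
  rw [lo_ap h, lo_ap h, dr_er h, (P354NK.kf_T 0 p).2, zero_smul, add_zero, one_smul]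
  refine ⟨?_, rfl⟩
  ext <;> simp [er4, wo, Lo, lo1, eT, Om]

theorem er_cd (h : 0 < rd p) : ContDiffAt ℝ ∞ er4 p :=
  contDiffAt_const.prodMk (((rd_cd h.ne').inv h.ne').smul contDiffAt_snd)

/-- The explicit metric. -/
def kb (M a : ℝ) (p : R4) : B2 :=
  (((tb (gin M a) p).comp (lo M a p)).flip.comp (lo M a p)).flip

theorem kb_ap (v w : R4) : kb M a p v w = gin M a p (lo M a p v) (lo M a p w) :=
  tb_ap (gin_bil M a p) _ _

theorem oj_kb {J : Type} {x : J → R4} {m b : J → ℝ} {r1 R : ℝ} (h1 : 0 < r1) (h2 : 2 * M + 2 < r1)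
    (hx : ∀ j, r1 ≤ rd (x j) ∧ rd (x j) ≤ R) (hm : ∀ j, |m j - M| ≤ 1) (hb : ∀ j, |b j - a| ≤ 1)
    (n : ℕ) : Oj n x (fun j => kb (m j) (b j)) 1 := by
  let f : J → R4 → ℝ × ℝ × R4 := fun j y => (m j, b j, pr0 y)
  have s : ∀ j, ContDiffAt ℝ ∞ (f j) (x j) := fun j =>
    contDiffAt_const.prodMk (contDiffAt_const.prodMk pr0.contDiff.contDiffAt)
  have d : Oj (n - 1) x (fun j => fderiv ℝ (f j)) 1 :=
    (Oj.cst ((ContinuousLinearMap.inr ℝ ℝ _).comp ((ContinuousLinearMap.inr ℝ ℝ _).comp pr0))).congr'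
      fun j y => ((hasFDerivAt_const _ _).prodMk ((hasFDerivAt_const _ _).prodMk
        pr0.hasFDerivAt)).fderiv.trans (by ext <;> simp)
  have i1 : ∀ j, m j ∈ Icc (M - 1) (M + 1) := fun j => by
    constructor <;> linarith [abs_le.1 (hm j)]
  have i2 : ∀ j, b j ∈ Icc (a - 1) (a + 1) := fun j => by
    constructor <;> linarith [abs_le.1 (hb j)]
  have g : Oj n x (fun j => tb (gin (m j) (b j))) 1 :=
    Oj.comp s n d ((os_gin (J := J) M a h1 R n).at id fun j => ⟨i1 j, i2 j, hx j⟩)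
  have w : Oj n x (fun j => wo (m j) (b j)) 1 :=
    Oj.comp s n (G := fun _ z => wo z.1 z.2.1 z.2.2) d
      (Oj.fix ((isCompact_Icc (a := M - 1) (b := M + 1)).prod
        ((isCompact_Icc (a := a - 1) (b := a + 1)).prod (shell_cpt r1 R))) (fun z hz => by
          have k : r1 ≤ rd z.2.2 := hz.2.2.2.1
          have r := (rd_cd (n := ∞) (h1.trans_le k).ne').comp z contDiffAt_snd.snd
          have o := (Om_cd 2).contDiffAt.comp z (contDiffAt_snd.snd (x := z) (n := ∞) (𝕜 := ℝ))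
          have D : rd z.2.2 ^ 2 - 2 * z.1 * rd z.2.2 + z.2.1 ^ 2 ≠ 0 := by
            have : z.1 ≤ M + 1 := hz.1.2
            nlinarith [sq_nonneg z.2.1, mul_pos (h1.trans_le k)
              (show 0 < rd z.2.2 - 2 * z.1 by linarith)]
          unfold wo lo1 Del
          simp only [Function.comp_def] at r o
          fun_prop (disch := assumption))
        fun j => mem_prod.2 ⟨i1 j, mem_prod.2 ⟨i2 j, rfl, hx j⟩⟩)
  have r : Oj n x (fun _ => fderiv ℝ rd) 1 :=
    (oj_st (m := n + 1) (F := rd) h1 hx fun _ hy => rd_cd hy.ne').fd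
  have l : Oj n x (fun j => lo (m j) (b j)) 1 := (Oj.cst _).add (by
    simpa using r.bil (ContinuousLinearMap.smulRightL ℝ R4 R4) w)
  exact (oj_bil g l l).mono le_rfl fun _ => by simp

/-- The hypotheses. -/
structure Aj (M a R : ℝ) (n : ℕ) where
  h : Tw
  φ : R4 → R4
  m : ℝ
  b : ℝ
  A : ℝ → ℝ
  B : ℝ → ℝ
  k : ℝ
  μ : ℝ
  q : R4
  th : IsTh M m b A B
  par : |m - M| + |b - a| ≤ min (1 / 8) (M / 2)
  hk : |k - 1| ≤ min (1 / 8) (M / 2)
  hq : rd q = R
  hμ : μ ∈ Icc 0 (min (1 / 8) (M / 2))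
  sb : Sb h q
  nid : Nid n φ q (min (1 / 8) (M / 2))
  df : Jb n (dfc φ k) q μ
  bd : Bd n (h - pb φ (kS M m b A B)) q μ

theorem alp : ALP := by
  intro M a R n hM hR
  have M0 : 0 < M := (abs_nonneg a).trans_lt hM
  have e1 : min (1 / 8) (M / 2) ≤ 1 / 8 := min_le_left _ _
  have e2 : min (1 / 8) (M / 2) ≤ M / 2 := min_le_right _ _
  let q : Aj M a R n → R4 := Aj.q
  have hq : ∀ j, R ≤ rd (q j) ∧ rd (q j) ≤ R := fun j => ⟨j.hq.ge, j.hq.le⟩
  have R0 : 0 < R := by linarith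
  have p : ∀ j, 0 < rd (q j) := fun j => R0.trans_le (hq j).1
  have hz : ∀ j : Aj M a R n, R - 1 ≤ rd (j.φ j.q) ∧ rd (j.φ j.q) ≤ R + 1 := fun j => by
    have := abs_le.1 (rd_near j.nid.x)
    constructor <;> linarith [j.hq]
  have sφ : ∀ j : Aj M a R n, ContDiffAt ℝ ∞ j.φ (q j) := fun j => j.nid.sm
  have D : Oj n q (fun j => fderiv ℝ j.φ) 1 := ((Oj.of1 (fun j => (at_fd (sφ j)).sub
    contDiffAt_const) fun j => j.nid.d).add (.cst _)).congr' fun _ _ => (sub_add_cancel _ _).symm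
  have iv := fun j : Aj M a R n => inv_near (j.nid.d.zero.trans (e1.trans (by norm_num)))
  have I := Oj.inv (fun j => (iv j).1) ⟨2, fun j => (iv j).2⟩ D
  have er : Oj n q (fun _ => er4) 1 := oj_st (F := er4) R0 hq fun _ => er_cd
  have ez : Oj n q (fun j y => er4 (j.φ y)) 1 := Oj.comp sφ n (D.le (Nat.sub_le n 1))
    (oj_st (F := er4) (by linarith) hz fun _ => er_cd)
  have r : Oj n q (fun _ => fderiv ℝ rd) 1 :=
    (oj_st (m := n + 1) (F := rd) R0 hq fun _ hy => rd_cd hy.ne').fd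
  have u := I.apl (Oj.cst eT)
  have w := I.apl ez
  have c := (r.apl u).smull (oj_rcp (c := 4 / 9) (by norm_num) (r.apl w) fun j => by
    have k1 : er4 j.q = j.k • (fderiv ℝ j.φ j.q).inverse (er4 (j.φ j.q)) +
        (fderiv ℝ j.φ j.q).inverse (dfc j.φ j.k j.q) := by
      rw [dfc, map_sub, map_smul, (iv j).1.inverse_apply_self, add_sub_cancel]
    have k2 := congrArg (fderiv ℝ rd j.q) k1
    rw [map_add, map_smul, rd_fd (p j).ne', dr_er (p j).ne',
      rd_fd (p j).ne' ((fderiv ℝ j.φ j.q).inverse (dfc j.φ j.k j.q)), smul_eq_mul] at k2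
    have k3 := abs_le.1 ((dr_bd j.q _).trans (mul_le_mul_of_nonneg_left
      (ContinuousLinearMap.le_of_opNorm_le_of_le _ (iv j).2 j.df.zero) zero_le_two))
    have k4 := abs_le.1 j.hk
    have k5 := j.hμ.2
    by_contra k6
    nlinarith [mul_le_mul_of_nonneg_left (not_le.1 k6).le (show 0 ≤ j.k by linarith)])
  have nr : ∀ j, ∀ᶠ y in 𝓝 (q j), 0 < rd y := fun j =>
    (isOpen_lt continuous_const rd_cont).mem_nhds (p j)
  have v : Oj n q (fun j => vt j.φ) 1 := (u.sub (c.smull w)).congr fun j => (nr j).mono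
    fun y hy => by simp only [vt, rd_fd hy.ne', smul_eq_mul, div_eq_mul_inv]
  have far : ∀ j : Aj M a R n, ∀ᶠ z in 𝓝 (j.φ j.q), 6 * M + 1 < rd z := fun j =>
    (isOpen_lt continuous_const rd_cont).mem_nhds (show _ < rd _ by linarith [(hz j).1])
  have m1 : ∀ j : Aj M a R n, |j.m - M| ≤ min (1 / 8) (M / 2) := fun j => by
    linarith [j.par, abs_nonneg (j.b - a)]
  have ks : ∀ j : Aj M a R n, ∀ z, 6 * M + 1 < rd z → ∀ v w,
      kS M j.m j.b j.A j.B z v w = kb j.m j.b z v w := fun j z hz v w =>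
    (kS_far M0 j.th (by linarith [abs_le.1 (m1 j)]) (by linarith) v w).trans (kb_ap v w).symm
  have K := oj_kb (M := M) (a := a) (x := fun j : Aj M a R n => j.φ j.q) (by linarith)
    (by linarith) hz (fun j => (m1 j).trans (by linarith))
    (fun j => show |j.b - a| ≤ 1 by linarith [j.par, abs_nonneg (j.m - M)]) n
  have sk : ∀ j : Aj M a R n, Sb (kS M j.m j.b j.A j.B) (j.φ j.q) := fun j =>
    Sb.congr (g := fun z v w => kb j.m j.b z v w) ⟨.of_forall fun z => by
      constructor <;> intros <;> simp, fun v w => ((K.sm j).clm_apply contDiffAt_const).clm_apply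
        contDiffAt_const⟩ ((far j).mono fun z hz => funext₂ (ks j z hz))
  have sd := fun j : Aj M a R n => j.sb.sub ((sk j).pull (sφ j))
  have δ := oj_of_bd sd fun j => j.bd
  have f : Oj n q (fun j => dfc j.φ j.k) Aj.μ := .of (fun j => ((D.sm j).clm_apply (er.sm j)).sub
    ((ez.sm j).const_smul _)) fun j => j.df
  have F : Oj n q (fun j y => -j.h y (er4 y) (vt j.φ y) - j.k) Aj.μ :=
    ((((δ.apl er).apl v).add (((Oj.comp sφ n (D.le (Nat.sub_le n 1)) K).apr f).apl
      (D.apl v))).neg).congr fun j => by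
      filter_upwards [(sd j).bl, (sφ j).continuousAt.eventually (far j),
        ev_inv (D.sm j).continuousAt (iv j).1] with y h1 h2 h3
      have z : 0 < rd (j.φ y) := by linarith
      have d : Del j.m j.b (rd (j.φ y)) ≠ 0 := by
        unfold Del
        nlinarith [sq_nonneg j.b, mul_pos z
          (show 0 < rd (j.φ y) - 2 * j.m by linarith [abs_le.1 (m1 j)])]
      have a1 : kb j.m j.b (j.φ y) (er4 (j.φ y)) (er4 (j.φ y)) = 0 := by
        rw [kb_ap, (lo_er z.ne').1, P354NK.gin_LL z d]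
      have a2 : kb j.m j.b (j.φ y) (er4 (j.φ y)) eT = -1 := by
        rw [kb_ap, (lo_er z.ne').1, (lo_er z.ne').2, P354NK.gin_L z d, (P354NK.kf_T _ _).1,
          (P354NK.kf_T 0 _).2, mul_zero, add_zero]
      have a3 : kb j.m j.b (j.φ y) (er4 (j.φ y)) (fderiv ℝ j.φ y (vt j.φ y)) = -1 := by
        rw [vt, map_sub, map_smul, h3.self_apply_inverse, h3.self_apply_inverse, map_sub, map_smul,
          a1, a2, smul_zero, sub_zero]
      simp only [tb_ap h1, Pi.sub_apply, pb, ks j _ h2, dfc, map_sub, map_smul, sub_apply,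
        smul_apply, a3, smul_eq_mul]
      ring
  have rq : ∀ j, ray R (q j) = q j := fun j => by
    rw [ray, show rd (q j) = R from j.hq, div_self R0.ne', one_smul]
  have sr : ∀ y, 0 < rd y → ContDiffAt ℝ ∞ (ray R) y := fun y hy =>
    contDiffAt_fst.prodMk ((contDiffAt_const.div (rd_cd hy.ne') hy.ne').smul contDiffAt_snd)
  have b : Oj (n - 1) q (fun _ => fderiv ℝ (ray R)) 1 :=
    (((oj_st (m := n - 1 + 1) R0 hq sr).add ((Oj.idm (y := q) ⟨0, by simp⟩).clm
      ((ContinuousLinearMap.inl ℝ ℝ _).comp (.fst ℝ ℝ _)))).congr'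
      (g := fun j y => ray R y - ((q j).1, 0)) fun j y => by
        ext <;> simp [pr0, ray, rd, xs]).fd.congr' fun _ _ => (fderiv_sub_const _).symm
  have G := Oj.comp (fun j => sr _ (p j)) n b (by simpa only [rq] using F)
  obtain ⟨C, -, hC⟩ := G.bd
  refine ⟨C, min (1 / 8) (M / 2), by positivity,
    fun h φ m b A B k μ x a1 a2 a3 a4 a5 a6 a7 a8 a9 => ?_⟩
  let j : Aj M a R n := ⟨h, φ, m, b, A, B, k, μ, x, a1, a2, a3, a4, a5, a6, a7, a8, a9⟩
  exact ⟨((G.sm j).add (contDiffAt_const (c := k))).congr_of_eventuallyEq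
    (.of_forall fun _ => (sub_add_cancel _ _).symm), hC j⟩

end Vale.Agent.P354TS
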