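import Vale.Agent.P354SM.NDefs
import Vale.Agent.P354SC.Ch
import Vale.Agent.P354JK.Main

/-!
EX0, part A: the unit vector of a point, the angle in the far chart, and chords.
-/

open scoped ContDiff
open Set Filter Topology Matrix

noncomputable section

namespace Vale.Agent.P354TS

open Vale.Agent.P354n (R4)
open Vale.Agent.P354I (X rm rp)
open Vale.Agent.P354R (Del)
open Vale.Agent.P354E (sg st st_0 st_1 st_2 st_den sg_sq)
open Vale.Agent.P354J (Psi Phi)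
open Vale.Agent.P354YJ (rz)
open Vale.Agent.P354XE (rd xs pt Par)
open Vale.Agent.P354XA (hor xs_pt rd_lin rd_cd)
open Vale.Agent.P354XM (sh)
open Vale.Agent.P354SA (ps et Y2)
open Vale.Agent.P354SC (qq qq_pos ps_deriv ps_cd)

theorem nsq (y : X) : ‖y‖ ^ 2 = y 0 ^ 2 + y 1 ^ 2 + y 2 ^ 2 := by
  rw [EuclideanSpace.norm_sq_eq, Fin.sum_univ_three]
  simp only [Real.norm_eq_abs, sq_abs]

theorem st_chord (σ : Bool) (e e' : Y2) : ‖(st σ e).1 - (st σ e').1‖ ^ 2 * (qq e * qq e') =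
    4 * ((e - e').1 ^ 2 + (e - e').2 ^ 2) := by
  have h : 1 + e.1 ^ 2 + e.2 ^ 2 ≠ 0 := (qq_pos e).ne'
  have h' : 1 + e'.1 ^ 2 + e'.2 ^ 2 ≠ 0 := (qq_pos e').ne'
  have s : sg σ ^ 2 = 1 := by rw [sq, sg_sq]
  simp only [nsq, PiLp.sub_apply, st_0, st_1, st_2, ← mul_sub, mul_pow, s, qq, Prod.fst_sub,
    Prod.snd_sub]
  field_simp
  ring

theorem sq_le_n (e : Y2) : e.1 ^ 2 ≤ ‖e‖ ^ 2 ∧ e.2 ^ 2 ≤ ‖e‖ ^ 2 :=
  ⟨sq_le_sq' (abs_le.1 (norm_fst_le e)).1 (abs_le.1 (norm_fst_le e)).2,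
    sq_le_sq' (abs_le.1 (norm_snd_le e)).1 (abs_le.1 (norm_snd_le e)).2⟩

theorem n_le_sq (e : Y2) : ‖e‖ ^ 2 ≤ e.1 ^ 2 + e.2 ^ 2 := by
  rcases max_choice ‖e.1‖ ‖e.2‖ with h | h <;> rw [Prod.norm_def, h, Real.norm_eq_abs, sq_abs] <;>
    nlinarith [sq_nonneg e.1, sq_nonneg e.2]

theorem qq_one (e : Y2) : 1 ≤ qq e := by unfold qq; nlinarith [sq_nonneg e.1, sq_nonneg e.2]

theorem qq_le {e : Y2} {K : ℝ} (h : ‖e‖ ≤ K) : qq e ≤ 1 + 2 * K ^ 2 := by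
  have := pow_le_pow_left₀ (norm_nonneg e) h 2
  have := sq_le_n e
  unfold qq
  linarith

theorem le_qq (e : Y2) : ‖e‖ ≤ qq e := by
  have := n_le_sq e
  unfold qq
  nlinarith [sq_nonneg (‖e‖ - 1)]

theorem st_lip (σ : Bool) (e e' : Y2) : ‖(st σ e).1 - (st σ e').1‖ ≤ 3 * ‖e - e'‖ := by
  refine abs_le_of_sq_le_sq' ?_ (by positivity) |>.2
  have a := st_chord σ e e'
  have b := sq_le_n (e - e')
  have c := one_le_mul_of_one_le_of_one_le (qq_one e) (qq_one e')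
  nlinarith [sq_nonneg ‖(st σ e).1 - (st σ e').1‖, sq_nonneg ‖e - e'‖]

theorem st_anti (σ : Bool) {e e' : Y2} {K : ℝ} (h : ‖e‖ ≤ K) (h' : ‖e'‖ ≤ K) :
    ‖e - e'‖ ≤ (1 + 2 * K ^ 2) * ‖(st σ e).1 - (st σ e').1‖ := by
  refine abs_le_of_sq_le_sq' ?_ (by positivity) |>.2
  have a := st_chord σ e e'
  have b := n_le_sq (e - e')
  have c := mul_le_mul (qq_le h) (qq_le h') (qq_pos _).le (by positivity)
  nlinarith [sq_nonneg ‖(st σ e).1 - (st σ e').1‖, sq_nonneg ‖e - e'‖]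

theorem st_norm (σ : Bool) (e : Y2) : ‖(st σ e).1‖ = 1 := mem_sphere_zero_iff_norm.1 (st σ e).2

theorem rz_rz (c c' : ℝ) (z : X) : rz c (rz c' z) = rz (c + c') z := by
  ext i; fin_cases i <;> simp [rz, Real.cos_add, Real.sin_add] <;> ring
theorem rz_zero (z : X) : rz 0 z = z := by ext i; fin_cases i <;> simp [rz]
theorem rz_smul (c l : ℝ) (z : X) : rz c (l • z) = l • rz c z := by
  ext i; fin_cases i <;> simp [rz] <;> ring
theorem rz_norm (c : ℝ) (z : X) : ‖rz c z‖ = ‖z‖ := by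
  refine (pow_left_inj₀ (norm_nonneg _) (norm_nonneg _) two_ne_zero).1 ?_
  rw [nsq, nsq]
  simp only [rz, Matrix.cons_val]
  linear_combination (z 0 ^ 2 + z 1 ^ 2) * Real.cos_sq_add_sin_sq c

/-- The rotation as a linear isometry. -/
def rzI (c : ℝ) : X →ₗᵢ[ℝ] X where
  toFun := rz c
  map_add' x y := by ext i; fin_cases i <;> simp [rz] <;> ring
  map_smul' := rz_smul c
  norm_map' := rz_norm c

theorem rz_dist (c : ℝ) (x y : X) : ‖rz c x - rz c y‖ = ‖x - y‖ :=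
  ((rzI c).map_sub x y ▸ (rzI c).norm_map (x - y) :)

theorem rz_mv (c : ℝ) {y : X} (h : ‖y‖ = 1) : ‖rz c y - y‖ ≤ |c| := by
  refine abs_le_of_sq_le_sq' ?_ (abs_nonneg _) |>.2
  have a := nsq y
  have b := Real.one_sub_sq_div_two_le_cos (x := c)
  have e : ‖rz c y - y‖ ^ 2 = (2 - 2 * Real.cos c) * (y 0 ^ 2 + y 1 ^ 2) := by
    rw [nsq]
    simp [rz]
    linear_combination (y 0 ^ 2 + y 1 ^ 2) * Real.cos_sq_add_sin_sq c
  rw [h] at a
  rw [e, sq_abs]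
  nlinarith [sq_nonneg (y 2), sq_nonneg (y 0), sq_nonneg (y 1), Real.cos_le_one c]

theorem rz_lip (c c' : ℝ) {y : X} (h : ‖y‖ = 1) : ‖rz c y - rz c' y‖ ≤ |c - c'| := by
  rw [show rz c y = rz c' (rz (c - c') y) by rw [rz_rz, add_sub_cancel], rz_dist]
  exact rz_mv _ h

theorem rz_tri (c c' : ℝ) (x : X) {y : X} (h : ‖y‖ = 1) :
    |‖rz c x - rz c' y‖ - ‖x - y‖| ≤ |c - c'| := by
  rw [← rz_dist c x y]
  refine (abs_norm_sub_norm_le _ _).trans ?_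
  rw [sub_sub_sub_cancel_left]
  exact rz_lip _ _ h

variable {M a μ ρ K : ℝ} {σ : Bool} {p p' : R4}

theorem del_ge (h : |a| < M) {r : ℝ} (hr : 3 * M ≤ r) : rp M a < r ∧ r ^ 2 / 3 ≤ Del M a r := by
  obtain ⟨h0, -, -, h3, -⟩ := hor h
  refine ⟨by linarith, ?_⟩
  unfold Del
  nlinarith [sq_nonneg a]

theorem ps_lip (h : |a| < M) (hM : M ≤ μ) (hρ : 3 * μ ≤ ρ) {r r' : ℝ} (hr : ρ ≤ r) (hr' : ρ ≤ r') :
    |ps M a r - ps M a r'| ≤ 6 * μ / ρ ^ 2 * |r - r'| := by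
  have h0 := (hor h).1
  refine (convex_Ici ρ).norm_image_sub_le_of_norm_hasDerivWithin_le (f := ps M a)
    (fun t ht => (ps_deriv h (del_ge h (by linarith [mem_Ici.1 ht])).1).hasDerivWithinAt)
    (fun t ht => ?_) hr' hr
  have d := (del_ge h (show 3 * M ≤ t by linarith [mem_Ici.1 ht])).2
  have ρ0 : 0 < ρ := by linarith
  have e := pow_le_pow_left₀ ρ0.le (mem_Ici.1 ht) 2
  have : 0 < ρ ^ 2 := by positivity
  rw [Real.norm_eq_abs, abs_div, abs_of_pos (by linarith : 0 < Del M a t), abs_mul, abs_two,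
    div_le_div_iff₀ (by linarith) this]
  nlinarith

/-- The unit vector, and the points which are not on the ray of the pole of the chart. -/
def un (p : R4) : X := (rd p)⁻¹ • xs p
def Gd (σ : Bool) (p : R4) : Prop := 0 < rd p ∧ 1 + sg σ * un p 2 ≠ 0

theorem un_norm (h : 0 < rd p) : ‖un p‖ = 1 := by
  rw [un, norm_smul, norm_inv, Real.norm_of_nonneg h.le]
  exact inv_mul_cancel₀ h.ne'

theorem un_two (p : R4) : un p 2 = P354RG.zh (xs p) := by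
  rw [P354RG.zh, div_eq_inv_mul]; rfl

theorem Gd.den (h : Gd σ p) (c : ℝ) :
    rz c (xs p) ≠ 0 ∧ ‖rz c (xs p)‖ + sg σ * rz c (xs p) 2 ≠ 0 := by
  have r : ‖xs p‖ ≠ 0 := h.1.ne'
  refine ⟨fun e => r (by rw [← rz_norm c, e, norm_zero]), fun e => h.2 ?_⟩
  rw [rz_norm, show rz c (xs p) 2 = xs p 2 from rfl] at e
  rw [un_two, P354RG.zh]
  field_simp
  exact e.trans (mul_zero _).symm

theorem Gd.xs_eq (h : Gd σ p) (M a : ℝ) :
    xs p = rd p • rz (ps M a (rd p)) (st σ (et M a σ p)).1 := by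
  have e := P354JK.phi_psi σ (h.den (-ps M a (rd p))).1 (h.den _).2
  rw [Phi, show (Psi σ _).1 = Real.log _ from rfl, rz_norm, ← rd, Real.exp_log h.1] at e
  rw [← rz_smul, et, e, rz_rz, add_neg_cancel, rz_zero]

theorem Gd.un_eq (h : Gd σ p) (M a : ℝ) : un p = rz (ps M a (rd p)) (st σ (et M a σ p)).1 := by
  rw [un, h.xs_eq M a, inv_smul_smul₀ h.1.ne']

theorem Gd.gap (h : Gd σ p) (M a : ℝ) : 1 + sg σ * un p 2 = 2 / qq (et M a σ p) := by
  rw [h.un_eq M a]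
  exact st_den σ _

theorem xs_cd : ContDiff ℝ ∞ xs := by
  refine contDiff_euclidean.2 fun i => ?_
  fin_cases i <;> simp [xs] <;> fun_prop

theorem Gd.et_cd (h : Gd σ p) (ha : |a| < M) (hr : rp M a < rd p) :
    ContDiffAt ℝ ∞ (et M a σ) p := by
  have s : ContDiffAt ℝ ∞ (fun p => -ps M a (rd p)) p := ((ps_cd ha hr).comp p (rd_cd h.1.ne')).neg
  have t : ContDiffAt ℝ ∞ (fun p => rz (-ps M a (rd p)) (xs p)) p := by
    refine contDiffAt_euclidean.2 fun i => ?_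
    have c := s.cos
    have d := s.sin
    fin_cases i <;> simp only [rz, xs, Fin.zero_eta, Fin.mk_one, Fin.reduceFinMk,
      Matrix.cons_val] <;> fun_prop
  exact ((P354JK.psi_smooth σ (h.den _).1 (h.den _).2).comp p t).snd

theorem ch1 (h : Gd σ p) (h' : Gd σ p') (ha : |a| < M) (hM : M ≤ μ) (hρ : 3 * μ ≤ ρ)
    (hr : ρ ≤ rd p) (hr' : ρ ≤ rd p') :
    ‖un p - un p'‖ ≤ 3 * ‖et M a σ p - et M a σ p'‖ + 6 * μ / ρ ^ 2 * |rd p - rd p'| := by
  have := (abs_le.1 ((rz_tri _ _ (st σ (et M a σ p)).1 (st_norm σ (et M a σ p'))).trans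
    (ps_lip ha hM hρ hr hr'))).2
  rw [← h.un_eq, ← h'.un_eq] at this
  linarith [st_lip σ (et M a σ p) (et M a σ p')]

theorem ch2 (h : Gd σ p) (h' : Gd σ p') (ha : |a| < M) (hM : M ≤ μ) (hρ : 3 * μ ≤ ρ)
    (hr : ρ ≤ rd p) (hr' : ρ ≤ rd p') (k : ‖et M a σ p‖ ≤ K) (k' : ‖et M a σ p'‖ ≤ K) :
    ‖et M a σ p - et M a σ p'‖ ≤
      (1 + 2 * K ^ 2) * (‖un p - un p'‖ + 6 * μ / ρ ^ 2 * |rd p - rd p'|) := by
  have := (abs_le.1 ((rz_tri _ _ (st σ (et M a σ p)).1 (st_norm σ (et M a σ p'))).trans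
    (ps_lip ha hM hρ hr hr'))).1
  rw [← h.un_eq, ← h'.un_eq] at this
  exact (st_anti σ k k').trans (mul_le_mul_of_nonneg_left (by linarith) (by positivity))

/-- An orthogonal matrix as a linear isometry. -/
def mvI (Q : Matrix (Fin 3) (Fin 3) ℝ) (h : Qᵀ * Q = 1) : X →ₗᵢ[ℝ] X where
  toFun y := WithLp.toLp 2 (Q *ᵥ y.ofLp)
  map_add' x y := by simp [mulVec_add]
  map_smul' c x := by simp [mulVec_smul]
  norm_map' y := by
    have := rd_lin (q := ⟨0, 0, 0, Q⟩) h (pt 0 y)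
    simp only [rd, Par.lin, xs_pt] at this
    exact this

def e3 : X := !₂[0, 0, 1]

theorem e3_in (y : X) : inner ℝ e3 y = y 2 := by
  simp [e3, PiLp.inner_apply, Fin.sum_univ_three]

theorem ex_iso {q q' : Par} {ε : ℝ} (h : q.Near M a ε) (h' : q'.Near M a ε) (φ : ℝ) :
    ∃ O : X →ₗᵢ[ℝ] X, ‖O e3 - e3‖ ≤ 4 * ε ∧
      ∀ c p, xs (P354YM.inv q' (q.lin (sh c φ p))) = O (xs p) := by
  obtain ⟨e0, -, -, k, n⟩ := h
  obtain ⟨-, -, -, k', n'⟩ := h'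
  have k2 : q'.Rᵀᵀ * q'.Rᵀ = 1 := by rw [transpose_transpose, mul_eq_one_comm.1 k']
  refine ⟨(mvI _ k2).comp ((mvI _ k).comp (rzI φ)), ?_, fun c p => ?_⟩
  · have e : e3 = mvI _ k2 (mvI _ k' e3) := by
      change _ = WithLp.toLp 2 (q'.Rᵀ *ᵥ q'.R *ᵥ e3.ofLp)
      rw [mulVec_mulVec, k', one_mulVec]
    have r : rzI φ e3 = e3 := by
      change rz φ e3 = e3
      ext i
      fin_cases i <;> simp [rz, e3]
    rw [LinearIsometry.coe_comp, LinearIsometry.coe_comp, Function.comp_apply, Function.comp_apply,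
      r]
    nth_rewrite 2 [e]
    rw [← map_sub, LinearIsometry.norm_map]
    have b : ∀ i, (mvI _ k e3 - mvI _ k' e3) i ^ 2 ≤ (2 * ε) ^ 2 := fun i => by
      have := abs_lt.1 (n i 2)
      have := abs_lt.1 (n' i 2)
      change ((q.R *ᵥ e3.ofLp) i - (q'.R *ᵥ e3.ofLp) i) ^ 2 ≤ _
      simp only [Matrix.sub_apply] at *
      simp [e3, mulVec, dotProduct, Fin.sum_univ_three]
      exact sq_le_sq' (by linarith) (by linarith)
    refine abs_le_of_sq_le_sq' ?_ (by linarith [abs_nonneg (q.M - M)]) |>.2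
    rw [nsq]
    nlinarith [b 0, b 1, b 2]
  · rw [P354YM.inv, xs_pt, Par.lin, xs_pt]
    rfl

end Vale.Agent.P354TS
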