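import Vale.Agent.P354TS.Ex0A

/-!
EX0, part B: the eikonal function in the far chart, and the gradient of its level sets.
-/

open scoped ContDiff
open Set Filter Topology

noncomputable section

namespace Vale.Agent.P354TS

open Vale.Agent.P354H (X3)
open Vale.Agent.P354I (X rm rp)
open Vale.Agent.P354R (Del)
open Vale.Agent.P354E (sg st)
open Vale.Agent.P354YJ (rz)
open Vale.Agent.P354XA (hor psi psi_deriv psi_cd lo1)
open Vale.Agent.P354SA (ps Y2)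
open Vale.Agent.P354SC (om om_cd ps_deriv ps_cd o_mull o_mulr o_sm o_bd o_cs o_fix o_inv)
open Vale.Agent.P354YI (Oj fd_comp ev_dif)
open Vale.Agent.P354YQ (SA JB JD)
open Real (cos sin)
open ContinuousLinearMap (fst snd)

/-- The height in the old frame, the eikonal function, and the gradient of its level sets. -/
def zt (M a : ℝ) (σ : Bool) (u : X) (x : X3) : ℝ :=
  u 0 * (cos (ps M a x.1) * om σ x.2 0 - sin (ps M a x.1) * om σ x.2 1) +
    u 1 * (sin (ps M a x.1) * om σ x.2 0 + cos (ps M a x.1) * om σ x.2 1) + u 2 * om σ x.2 2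
def EE0 (l M a : ℝ) (σ : Bool) (u : X) (T : ℝ × ℝ → ℝ) (x : X3) : ℝ :=
  l * x.1 + psi M a x.1 + l * T (x.1, zt M a σ u x)
def PP (E : X3 → ℝ) (x : X3) : Y2 :=
  (-((fderiv ℝ E x (1, 0, 0))⁻¹ * fderiv ℝ E x (0, 1, 0)),
    -((fderiv ℝ E x (1, 0, 0))⁻¹ * fderiv ℝ E x (0, 0, 1)))

variable {l M a : ℝ} {σ : Bool} {u : X} {T : ℝ × ℝ → ℝ} {x : X3}

theorem zt_in (M a : ℝ) (σ : Bool) (u : X) (x : X3) :
    zt M a σ u x = inner ℝ u (rz (ps M a x.1) (st σ x.2).1) := by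
  simp only [PiLp.inner_apply, Fin.sum_univ_three, RCLike.inner_apply, conj_trivial, mul_comm _ (u _)]
  rfl

theorem zt_cd (h : |a| < M) (hr : rp M a < x.1) : ContDiffAt ℝ ∞ (zt M a σ u) x := by
  have s : ContDiffAt ℝ ∞ (fun y : X3 => ps M a y.1) x := (ps_cd h hr).comp x contDiffAt_fst
  have o : ∀ i, ContDiffAt ℝ ∞ (fun y : X3 => om σ y.2 i) x := fun i =>
    (om_cd σ i).contDiffAt.comp x contDiffAt_snd
  exact ((contDiffAt_const.mul ((s.cos.mul (o 0)).sub (s.sin.mul (o 1)))).add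
    (contDiffAt_const.mul ((s.sin.mul (o 0)).add (s.cos.mul (o 1))))).add
      (contDiffAt_const.mul (o 2))

theorem ev_r {c : ℝ} (hr : c < x.1) : ∀ᶠ y in 𝓝 x, c < y.1 :=
  continuous_fst.continuousAt.eventually (lt_mem_nhds hr)

theorem EE_sa (h : |a| < M) (hr : rp M a < x.1) (hT : SA T (x.1, zt M a σ u x)) :
    SA (EE0 l M a σ u T) x := by
  have g : SA (fun y : X3 => (y.1, zt M a σ u y)) x :=
    (ev_r hr).mono fun y hy => contDiffAt_fst.prodMk (zt_cd h hy)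
  filter_upwards [ev_r hr, SA.comp hT g] with y h1 h2
  exact ((contDiffAt_const.mul contDiffAt_fst).add ((psi_cd h h1).comp y contDiffAt_fst)).add
    (contDiffAt_const.mul h2)

theorem EE_fd (h : |a| < M) (hr : rp M a < x.1) (hT : DifferentiableAt ℝ T (x.1, zt M a σ u x)) :
    fderiv ℝ (EE0 l M a σ u T) x = l • fst ℝ ℝ Y2 + lo1 M a x.1 • fst ℝ ℝ Y2 + l •
      (fderiv ℝ T (x.1, zt M a σ u x)).comp ((fst ℝ ℝ Y2).prod (fderiv ℝ (zt M a σ u) x)) :=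
  (((hasFDerivAt_fst.const_mul l).add ((psi_deriv h hr).comp_hasFDerivAt x hasFDerivAt_fst)).add
    ((hT.hasFDerivAt.comp x (hasFDerivAt_fst.prodMk
      ((zt_cd h hr).differentiableAt (by simp)).hasFDerivAt)).const_mul l)).fderiv

theorem lo1_eq (h : |a| < M) {r : ℝ} (hr : rp M a < r) :
    lo1 M a r = 1 + 4 * (M * ((r - rm M a)⁻¹ * (1 + rp M a * (r - rp M a)⁻¹))) ∧
      2 * a / Del M a r = 2 * (a * ((r - rm M a)⁻¹ * (r - rp M a)⁻¹)) := by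
  obtain ⟨-, -, h2, -, -, h5, -⟩ := hor h
  have a1 := (sub_pos.2 hr).ne'
  have a2 := (sub_pos.2 (h2.trans hr)).ne'
  have e : lo1 M a r = 1 + 4 * M * r / Del M a r := by
    have : Del M a r ≠ 0 := h5 r ▸ mul_ne_zero a1 a2
    unfold lo1
    field_simp
    unfold Del
    ring
  rw [e, h5]
  constructor <;> field_simp
  ring

theorem lo1_ge (h : |a| < M) {r : ℝ} (hr : rp M a < r) : 1 ≤ lo1 M a r := by
  obtain ⟨h0, h1, h2, -⟩ := hor h
  have := sub_pos.2 hr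
  have := sub_pos.2 (h2.trans hr)
  have := h1.trans_lt h2
  rw [(lo1_eq h hr).1]
  exact le_add_of_nonneg_right (by positivity)

theorem oj_inv {J : Type} {x : J → ℝ} (h : ∀ j, 1 ≤ x j) (n : ℕ) :
    Oj n x (fun _ t => t⁻¹) 1 := by
  have x0 := fun j => (one_pos.trans_le (h j))
  have h0 : Oj 0 x (fun _ t => t⁻¹) 1 := .zero (fun j => contDiffAt_inv ℝ (x0 j).ne')
    (fun _ => zero_le_one) ⟨1, fun j => by
      simpa [abs_of_pos (x0 j)] using inv_le_one_of_one_le₀ (h j)⟩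
  induction n with
  | zero => exact h0
  | succ n ih =>
    refine h0.succ (((o_mull ih ih).neg.smull (Oj.cst (.id ℝ ℝ))).congr fun j => ?_)
    filter_upwards [lt_mem_nhds (x0 j)] with t ht
    rw [(hasDerivAt_inv ht.ne').hasFDerivAt.fderiv]
    ext
    simp [sq]

/-- The data at a point. -/
structure Ej (σ : Bool) (μ K C0 ρ : ℝ) where
  (l M a : ℝ)
  u : X
  T : ℝ × ℝ → ℝ
  x : X3
  ha : |a| < M
  hM : M ≤ μ
  hl : l ∈ Icc (1 / 2 : ℝ) 2
  hu : ‖u‖ = 1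
  hρ : 3 * μ + 1 ≤ ρ ∧ 12 * μ * C0 ≤ ρ ^ 2
  hr : ρ < x.1
  hK : ‖x.2‖ ≤ K
  hT : JD 2 T (x.1, zt M a σ u x) C0
  h1 : |fderiv ℝ T (x.1, zt M a σ u x) (1, 0)| ≤ 1 / 2

namespace Ej
variable {μ K C0 ρ : ℝ} {n : ℕ}

def E (j : Ej σ μ K C0 ρ) : X3 → ℝ := EE0 j.l j.M j.a σ j.u j.T

theorem rp1 (j : Ej σ μ K C0 ρ) : 1 ≤ j.x.1 - rp j.M j.a ∧ 1 ≤ j.x.1 - rm j.M j.a ∧
    |rp j.M j.a| ≤ 2 * μ ∧ |j.M| ≤ μ := by
  obtain ⟨h0, h1, h2, h3, -⟩ := hor j.ha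
  have := j.hM
  have := j.hr
  have := j.hρ.1
  exact ⟨by linarith, by linarith, abs_le.2 ⟨by linarith, by linarith⟩,
    abs_le.2 ⟨by linarith, by linarith⟩⟩

theorem rp_lt (j : Ej σ μ K C0 ρ) : rp j.M j.a < j.x.1 := by linarith [j.rp1.1]

theorem sa (j : Ej σ μ K C0 ρ) : SA j.E j.x := EE_sa j.ha j.rp_lt j.hT.sm

theorem er (j : Ej σ μ K C0 ρ) : 1 ≤ fderiv ℝ j.E j.x (1, 0, 0) := by
  have h0 := (hor j.ha).1
  have := j.hM
  have ρ1 := j.hρ.1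
  have ρ0 : 0 < ρ ^ 2 := pow_pos (by linarith) 2
  have d : HasDerivAt (fun t => zt j.M j.a σ j.u (t, j.x.2))
      (fderiv ℝ (zt j.M j.a σ j.u) j.x (1, 0, 0)) j.x.1 :=
    HasFDerivAt.comp_hasDerivAt (f := fun t => ((t, j.x.2) : X3)) j.x.1
      ((zt_cd j.ha j.rp_lt).differentiableAt (by simp)).hasFDerivAt
      ((hasDerivAt_id j.x.1).prodMk (hasDerivAt_const j.x.1 j.x.2))
  have b := d.le_of_lip' (C := 6 * μ / ρ ^ 2) (div_nonneg (by linarith) ρ0.le) (by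
    filter_upwards [lt_mem_nhds j.hr] with t ht
    rw [zt_in, zt_in, ← inner_sub_right]
    refine (norm_inner_le_norm _ _).trans ?_
    rw [j.hu, one_mul]
    exact (rz_lip _ _ (st_norm _ _)).trans (ps_lip j.ha j.hM (by linarith) ht.le j.hr.le))
  have c := (fderiv ℝ j.T (j.x.1, zt j.M j.a σ j.u j.x)).le_of_opNorm_le (j.hT.fderiv.zero) (0, 1)
  have c0 := j.hT.fderiv.nonneg
  have e : ∀ t : ℝ, ((1, t) : ℝ × ℝ) = (1, 0) + t • (0, 1) := fun t => by simp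
  rw [E, EE_fd j.ha j.rp_lt j.hT.sm.diff]
  simp only [add_apply, smul_apply, ContinuousLinearMap.comp_apply, ContinuousLinearMap.prod_apply,
    ContinuousLinearMap.coe_fst', smul_eq_mul, mul_one]
  rw [e, map_add, map_smul, smul_eq_mul]
  have k := (abs_le.1 ((abs_mul _ _).le.trans (mul_le_mul b c (abs_nonneg _)
    ((abs_nonneg _).trans b)))).1
  have k2 : 6 * μ / ρ ^ 2 * (C0 * ‖((0, 1) : ℝ × ℝ)‖) ≤ 1 / 2 := by
    rw [div_mul_eq_mul_div, div_le_iff₀ ρ0]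
    simp only [Prod.norm_def, norm_zero, norm_one, zero_le_one, max_eq_right]
    linarith [j.hρ.2]
  have := lo1_ge j.ha j.rp_lt
  have := (abs_le.1 j.h1).1
  nlinarith [j.hl.1]

theorem o_sub {c : Ej σ μ K C0 ρ → ℝ} (h : ∀ j, 1 ≤ j.x.1 - c j) :
    Oj n Ej.x (fun j y => (y.1 - c j)⁻¹) 1 :=
  Oj.comp (f := fun j (y : X3) => y.1 - c j) (fun _ => contDiffAt_fst.sub contDiffAt_const) n
    ((Oj.cst (fst ℝ ℝ Y2)).congr' fun _ _ => (hasFDerivAt_fst.sub_const _).fderiv) (oj_inv h n)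

theorem o_zt : Oj 2 Ej.x (fun j : Ej σ μ K C0 ρ => zt j.M j.a σ j.u) 1 := by
  have p := o_cs (n := 2) (x := Ej.x) (f := fun (j : Ej σ μ K C0 ρ) y => ps j.M j.a y.1)
    (fun j => (ps_cd j.ha j.rp_lt).comp _ contDiffAt_fst)
    (((o_sm 2 (o_mull (o_bd fun j => j.ha.le.trans j.hM) (o_mull (o_sub fun j => j.rp1.2.1)
      (o_sub fun j => j.rp1.1)))).smull (Oj.cst (fst ℝ ℝ Y2))).congr fun j =>
        (ev_r j.rp_lt).mono fun y hy => by
          simp only [← (lo1_eq j.ha hy).2]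
          exact ((ps_deriv j.ha hy).comp_hasFDerivAt y hasFDerivAt_fst).fderiv)
  have y : Oj 2 Ej.x (fun (_ : Ej σ μ K C0 ρ) (y : X3) => y.2) 1 :=
    (Oj.zero (fun _ => contDiffAt_snd) (fun _ => zero_le_one) ⟨K, fun j => by
      simpa using j.hK⟩).succ ((Oj.cst (snd ℝ ℝ Y2)).congr' fun _ _ => hasFDerivAt_snd.fderiv)
  have o := fun i => o_fix y (isCompact_closedBall 0 K) (F := fun e => om σ e i)
    (fun _ _ => (om_cd σ i).contDiffAt) fun j => mem_closedBall_zero_iff.2 j.hK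
  have u := fun i => o_bd (n := 2) (x := Ej.x) (r := fun j : Ej σ μ K C0 ρ => j.u i) (C := 1)
    fun j => (PiLp.norm_apply_le j.u i).trans j.hu.le
  exact ((o_mull (u 0) ((o_mull p.1 (o 0)).sub (o_mull p.2 (o 1)))).add
    (o_mull (u 1) ((o_mull p.2 (o 0)).add (o_mull p.1 (o 1))))).add (o_mull (u 2) (o 2))

theorem o_dE : Oj 1 Ej.x (fun j : Ej σ μ K C0 ρ => fderiv ℝ j.E) 1 := by
  have l := o_bd (n := 1) (x := Ej.x) (r := fun j : Ej σ μ K C0 ρ => j.l) (C := 2)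
    fun j => abs_le.2 ⟨by linarith [j.hl.1], j.hl.2⟩
  have g : Oj 1 Ej.x (fun (j : Ej σ μ K C0 ρ) y =>
      (fst ℝ ℝ Y2).prod (fderiv ℝ (zt j.M j.a σ j.u) y)) 1 :=
    ((Oj.cst (fst ℝ ℝ Y2)).pair o_zt.fd).clm
      (ContinuousLinearMap.prodₗᵢ ℝ).toContinuousLinearEquiv.toContinuousLinearMap
  have t := Oj.comp (f := fun (j : Ej σ μ K C0 ρ) (y : X3) => (y.1, zt j.M j.a σ j.u y))
    (fun j => contDiffAt_fst.prodMk (o_zt.sm j)) 1 (g.pred.congr fun j =>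
      (ev_dif (o_zt.sm j)).mono fun y hy => (hasFDerivAt_fst.prodMk hy.hasFDerivAt).fderiv)
    (Oj.of1 (fun j => j.hT.fderiv.sm.at) fun j => j.hT.fderiv.le)
  refine (((l.smull (Oj.cst (fst ℝ ℝ Y2))).add (((Oj.cst 1).add (o_sm 4 (o_mull
    (o_bd fun j => j.rp1.2.2.2) (o_mull (o_sub fun j => j.rp1.2.1) ((Oj.cst 1).add (o_mull
      (o_bd fun j => j.rp1.2.2.1) (o_sub fun j => j.rp1.1))))))).smull
        (Oj.cst (fst ℝ ℝ Y2)))).add (l.smull (t.cl g))).congr fun j => ?_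
  filter_upwards [ev_r j.rp_lt, (contDiffAt_fst.prodMk (o_zt.sm j)).continuousAt.eventually
    (ev_dif j.hT.sm.at)] with y h1 h2
  rw [E, EE_fd j.ha h1 h2, (lo1_eq j.ha h1).1]

end Ej

theorem eb (σ : Bool) (μ K C0 ρ : ℝ) : ∃ C ≥ 1, ∀ j : Ej σ μ K C0 ρ,
    fderiv ℝ j.E j.x (1, 0, 0) ≤ C ∧ JB 1 (PP j.E) j.x C := by
  have d := fun v : X3 => (Ej.o_dE (σ := σ) (μ := μ) (K := K) (C0 := C0) (ρ := ρ)).apl (Oj.cst v)
  have i := o_inv (d (1, 0, 0)) one_pos Ej.er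
  obtain ⟨C, c0, hC⟩ := ((d (1, 0, 0)).pair ((o_mull i (d (0, 1, 0))).neg.pair
    (o_mull i (d (0, 0, 1))).neg)).val
  obtain ⟨D, hD⟩ := P354YQ.oj_jb ((o_mull i (d (0, 1, 0))).neg.pair (o_mull i (d (0, 0, 1))).neg)
    fun j => by
      have s := fun v : X3 => j.sa.fderiv.clm (ContinuousLinearMap.apply ℝ ℝ v)
      filter_upwards [s (1, 0, 0), s (0, 1, 0), s (0, 0, 1), (s (1, 0, 0)).cont.eventually_ne
        (one_pos.trans_le j.er).ne'] with y a b c e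
      exact ((a.inv e).mul b).neg.prodMk ((a.inv e).mul c).neg
  refine ⟨max 1 (max C D), le_max_left _ _, fun j => ⟨?_, (hD j).mono (by simp)⟩⟩
  exact ((le_abs_self _).trans ((norm_fst_le _).trans ((hC j).trans_eq (mul_one _)))).trans
    (by simp)

end Vale.Agent.P354TS
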