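import Vale.Agent.P354TS.Ex0B

/-!
EX0, part C: Lipschitz estimates along the far rays of Kerr.
-/

open scoped ContDiff
open Set Filter Topology

noncomputable section

namespace Vale.Agent.P354TS

open Vale.Agent.P354n (R4)
open Vale.Agent.P354H (X3)
open Vale.Agent.P354I (X P3 rm rp)
open Vale.Agent.P354E (sg st)
open Vale.Agent.P354YJ (rz)
open Vale.Agent.P354XE (rd xs)
open Vale.Agent.P354XA (hor psi psi_deriv rd_cd)
open Vale.Agent.P354XM (sh)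
open Vale.Agent.P354SA (ps et Y2 Ref e0)
open Vale.Agent.P354SC (qq qq_pos)
open Vale.Agent.P354YQ (SA JB JD)

theorem psi_mono {M a r r' : ℝ} (h : |a| < M) (h1 : rp M a < r) (h2 : r ≤ r') :
    psi M a r ≤ psi M a r' :=
  monotoneOn_of_deriv_nonneg (convex_Ici r)
    (fun _ ht => (psi_deriv h (h1.trans_le ht)).continuousAt.continuousWithinAt)
    (fun _ ht => (psi_deriv h (h1.trans_le (interior_subset ht))).differentiableAt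
      |>.differentiableWithinAt)
    (fun _ ht => by
      have := h1.trans_le (interior_subset ht)
      rw [(psi_deriv h this).deriv]
      linarith [lo1_ge h this]) self_mem_Ici h2 h2

theorem un_sh (c φ : ℝ) (p : R4) : un (sh c φ p) = rz φ (un p) := by
  have e : xs (sh c φ p) = rz φ (xs p) := rfl
  rw [un, un, rz_smul, rd, e, rz_norm, rd]

theorem un_abs {p : R4} (h : 0 < rd p) : un p 2 ∈ Icc (-1 : ℝ) 1 :=
  abs_le.1 ((PiLp.norm_apply_le (un p) 2).trans (un_norm h).le)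

/-- The function S in the variables (r, ζ). -/
theorem T_lip {T : ℝ × ℝ → ℝ} {r1 C0 : ℝ} (h : ∀ r ≥ r1, ∀ ζ ∈ Icc (-1 : ℝ) 1,
    JD 2 T (r, ζ) C0 ∧ |fderiv ℝ T (r, ζ) (1, 0)| ≤ 1 / 2) {r r' ζ ζ' : ℝ} (h1 : r1 ≤ r)
    (h2 : r1 ≤ r') (k1 : ζ ∈ Icc (-1 : ℝ) 1) (k2 : ζ' ∈ Icc (-1 : ℝ) 1) :
    |T (r, ζ) - T (r', ζ')| ≤ 1 / 2 * |r - r'| + C0 * |ζ - ζ'| := by
  have a := (convex_Ici r1).norm_image_sub_le_of_norm_hasDerivWithin_le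
    (f := fun t => T (t, ζ)) (C := 1 / 2) (fun t ht => (HasFDerivAt.comp_hasDerivAt
      (f := fun t => ((t, ζ) : ℝ × ℝ)) t (h t ht ζ k1).1.sm.diff.hasFDerivAt
      ((hasDerivAt_id t).prodMk (hasDerivAt_const t ζ))).hasDerivWithinAt)
    (fun t ht => (h t ht ζ k1).2) h2 h1
  have b := (convex_Icc (-1 : ℝ) 1).norm_image_sub_le_of_norm_hasDerivWithin_le
    (f := fun t => T (r', t)) (C := C0) (fun t ht => (HasFDerivAt.comp_hasDerivAt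
      (f := fun t => ((r', t) : ℝ × ℝ)) t (h r' h2 t ht).1.sm.diff.hasFDerivAt
      ((hasDerivAt_const t r').prodMk (hasDerivAt_id t))).hasDerivWithinAt)
    (fun t ht => (ContinuousLinearMap.le_of_opNorm_le _
      (h r' h2 t ht).1.fderiv.zero (0, 1)).trans (by simp)) k2 k1
  exact (abs_sub_le _ (T (r', ζ)) _).trans (add_le_add a b)

/-- The region of the rays beyond the radius ρ. -/
def Wr (s1 r1 ρ : ℝ) : Set R4 := {w | ‖w.2.2‖ ≤ 9 ∧ s1 + 2 * (ρ - r1) ≤ w.1}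

/-- The rays of Kerr with bounds for the parameters. -/
structure Rx (p0 : P3) (k ε1 C0 s1 r1 : ℝ) (H : ℕ → P354RG.Y3 → ℝ) (b σ : Bool)
    (Ψ : P3 × ℝ → R4 → R4) (S : P354RG.Y3 → ℝ) (x : P3 × ℝ) (μ ρ : ℝ) : Prop
    extends Ref p0 k ε1 C0 s1 r1 H b σ Ψ S x where
  ha : |x.1.2.1| < x.1.1
  hM : x.1.1 ≤ μ
  hμ : 3 * μ ≤ r1
  hρ : r1 ≤ ρ
  hC : 1 ≤ C0

namespace Rx

variable {p0 : P3} {k ε1 C0 s1 r1 : ℝ} {H : ℕ → P354RG.Y3 → ℝ} {b σ : Bool}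
  {Ψ : P3 × ℝ → R4 → R4} {S : P354RG.Y3 → ℝ} {x : P3 × ℝ} {μ ρ : ℝ}
  (h : Rx p0 k ε1 C0 s1 r1 H b σ Ψ S x μ ρ) {w w' : R4}
include h

theorem s_le (hw : w ∈ Wr s1 r1 ρ) : s1 ≤ w.1 := by linarith [hw.2, h.hρ]

theorem r_eq (hw : w ∈ Wr s1 r1 ρ) : rd (Ψ x w) = r1 + (w.1 - s1) / 2 := h.rad w hw.1 (h.s_le hw)

theorem r_ge (hw : w ∈ Wr s1 r1 ρ) : ρ ≤ rd (Ψ x w) := by linarith [hw.2, h.r_eq hw]

theorem μ0 : 0 < μ := (hor h.ha).1.trans_le h.hM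

theorem r0 (hw : w ∈ Wr s1 r1 ρ) : 0 < rd (Ψ x w) := by linarith [h.r_ge hw, h.hρ, h.hμ, h.μ0]

theorem cd (hw : ‖w.2.2‖ ≤ 9) : ContDiffAt ℝ ∞ (Ψ x) w :=
  (h.smooth w hw).comp w (contDiffAt_const.prodMk contDiffAt_id)

theorem gap (hw : w ∈ Wr s1 r1 ρ) (g : 1 + sg σ * un (Ψ x w) 2 ≠ 0) :
    2 / (1 + 2 * C0 ^ 2) ≤ 1 + sg σ * un (Ψ x w) 2 := by
  rw [Gd.gap ⟨h.r0 hw, g⟩ x.1.1 x.1.2.1]
  exact div_le_div_of_nonneg_left zero_le_two (qq_pos _) (qq_le (h.ang w hw.1 (h.s_le hw)).1)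

theorem gd (hw : w ∈ Wr s1 r1 ρ) : Gd σ (Ψ x w) := by
  refine ⟨h.r0 hw, fun e => ?_⟩
  have m : ∀ y ∈ Metric.closedBall (0 : Y2) 9, (w.1, w.2.1, y) ∈ Wr s1 r1 ρ := fun y hy =>
    ⟨mem_closedBall_zero_iff.1 hy, hw.2⟩
  have c : ContinuousOn (fun y : Y2 => 1 + sg σ * un (Ψ x (w.1, w.2.1, y)) 2)
      (Metric.closedBall 0 9) := fun y hy => by
    have a : ContinuousAt (fun y : Y2 => Ψ x (w.1, w.2.1, y)) y :=
      ContinuousAt.comp (f := fun y : Y2 => ((w.1, w.2.1, y) : R4)) (h.cd (m y hy).1).continuousAt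
        (by fun_prop)
    have n := (h.r0 (m y hy)).ne'
    have r := ContinuousAt.comp (f := fun y : Y2 => Ψ x (w.1, w.2.1, y))
      (rd_cd (n := 0) n).continuousAt a
    exact (continuousAt_const.add (continuousAt_const.mul
      ((r.inv₀ n).mul a.snd.snd.snd))).continuousWithinAt
  have p := h.pole (w.1, w.2.1, 0) (by norm_num)
  have := h.hC
  have c0 : 0 < C0⁻¹ := by positivity
  have d : 0 < 1 + 2 * C0 ^ 2 := by positivity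
  obtain ⟨y, hy, e'⟩ := (convex_closedBall (0 : Y2) 9).isPreconnected.intermediate_value
    (mem_closedBall_zero_iff.2 hw.1) (Metric.mem_closedBall_self (by norm_num)) c
    (show 1 / (1 + 2 * C0 ^ 2) ∈ Icc _ _ from ⟨e.le.trans (by positivity), by
      rw [un_two, div_le_iff₀ d]
      nlinarith [sq_nonneg C0]⟩)
  have := h.gap (m y hy) (by rw [show _ + _ = _ from e']; positivity)
  rw [show 1 + sg σ * _ = _ from e', div_le_div_iff_of_pos_right d] at this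
  linarith

theorem et_s (hw : w ∈ Wr s1 r1 ρ) (hw' : w' ∈ Wr s1 r1 ρ) :
    ‖et x.1.1 x.1.2.1 σ (Ψ x (w.1, w'.2)) - et x.1.1 x.1.2.1 σ (Ψ x w')‖ ≤
      2 * C0 / ρ ^ 2 * |rd (Ψ x w) - rd (Ψ x w')| := by
  have ρ0 : 0 < ρ := by linarith [h.hρ, h.hμ, h.μ0]
  have m : ∀ t ∈ Ici (s1 + 2 * (ρ - r1)), (t, w'.2) ∈ Wr s1 r1 ρ := fun t ht => ⟨hw'.1, ht⟩
  have a := (convex_Ici (s1 + 2 * (ρ - r1))).norm_image_sub_le_of_norm_hasDerivWithin_le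
    (f := fun t => et x.1.1 x.1.2.1 σ (Ψ x (t, w'.2))) (C := C0 / ρ ^ 2)
    (fun t ht => (HasFDerivAt.comp_hasDerivAt (l := fun y => et x.1.1 x.1.2.1 σ (Ψ x y))
      (f := fun t => ((t, w'.2) : R4)) t ((((h.gd (m t ht)).et_cd h.ha (del_ge h.ha (by
        linarith [h.r_ge (m t ht), h.hρ, h.hμ, h.hM])).1).comp _ (h.cd hw'.1)).differentiableAt
          (by simp)).hasFDerivAt
      ((hasDerivAt_id t).prodMk (hasDerivAt_const t w'.2))).hasDerivWithinAt)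
    (fun t ht => (h.ang (t, w'.2) hw'.1 (h.s_le (m t ht))).2.1.trans (div_le_div_of_nonneg_left
      (by linarith [h.hC]) (by positivity) (pow_le_pow_left₀ ρ0.le (h.r_ge (m t ht)) 2)))
    hw'.2 hw.2
  refine a.trans_eq ?_
  rw [h.r_eq hw, h.r_eq hw', show r1 + (w.1 - s1) / 2 - (r1 + (w'.1 - s1) / 2) = (w.1 - w'.1) / 2 by
    ring, abs_div, abs_two, Real.norm_eq_abs]
  ring

theorem D1 (hw : w ∈ Wr s1 r1 ρ) (hw' : w' ∈ Wr s1 r1 ρ) : ‖un (Ψ x w) - un (Ψ x w')‖ ≤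
    4 * C0 * ‖w.2 - w'.2‖ + 6 * (C0 + μ) / ρ ^ 2 * |rd (Ψ x w) - rd (Ψ x w')| := by
  obtain ⟨c, om, -, o, e⟩ := h.sym
  have m : (w.1, w'.2.1, w.2.2) ∈ Wr s1 r1 ρ := hw
  have a : ‖un (Ψ x w) - un (Ψ x (w.1, w'.2.1, w.2.2))‖ ≤ C0 * ‖w.2 - w'.2‖ := by
    have := e (w.1, w'.2.1, w.2.2) (w.2.1 - w'.2.1)
    rw [add_sub_cancel] at this
    rw [show Ψ x w = _ from this, un_sh]
    exact (rz_mv _ (un_norm (h.r0 m))).trans ((abs_mul _ _).le.trans (mul_le_mul o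
      (norm_fst_le (w.2 - w'.2)) (abs_nonneg _) (by linarith [h.hC])))
  have b := ch1 (h.gd m) (h.gd hw') h.ha h.hM (h.hμ.trans h.hρ) (h.r_ge m) (h.r_ge hw')
  have c := (((h.ang _ m.1 (h.s_le m)).2.2 _ hw'.1).2.trans (mul_le_mul_of_nonneg_left
    (norm_snd_le (w.2 - w'.2)) (by linarith [h.hC])))
  have d := h.et_s hw hw'
  have t := norm_sub_le_norm_sub_add_norm_sub (et x.1.1 x.1.2.1 σ (Ψ x (w.1, w'.2.1, w.2.2)))
    (et x.1.1 x.1.2.1 σ (Ψ x (w.1, w'.2))) (et x.1.1 x.1.2.1 σ (Ψ x w'))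
  rw [h.r_eq m, ← h.r_eq hw] at b
  have := norm_sub_le_norm_sub_add_norm_sub (un (Ψ x w)) (un (Ψ x (w.1, w'.2.1, w.2.2)))
    (un (Ψ x w'))
  simp only [div_eq_mul_inv] at *
  linarith

theorem D2 (hw : w ∈ Wr s1 r1 ρ) (hw' : w' ∈ Wr s1 r1 ρ) (e : w.2.1 = w'.2.1) :
    ‖w.2.2 - w'.2.2‖ ≤ C0 * (1 + 2 * C0 ^ 2) * (‖un (Ψ x w) - un (Ψ x w')‖ +
      6 * (C0 + μ) / ρ ^ 2 * |rd (Ψ x w) - rd (Ψ x w')|) := by
  have a := ((h.ang _ hw.1 (h.s_le hw)).2.2 _ hw'.1).1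
  have b := ch2 (h.gd hw) (h.gd hw') h.ha h.hM (h.hμ.trans h.hρ) (h.r_ge hw) (h.r_ge hw')
    (h.ang _ hw.1 (h.s_le hw)).1 (h.ang _ hw'.1 (h.s_le hw')).1
  have d := h.et_s hw hw'
  have t := norm_sub_le_norm_sub_add_norm_sub (et x.1.1 x.1.2.1 σ (Ψ x w))
    (et x.1.1 x.1.2.1 σ (Ψ x w')) (et x.1.1 x.1.2.1 σ (Ψ x (w.1, w'.2)))
  rw [norm_sub_rev] at d
  rw [e] at a
  have c0 := h.hC
  refine a.trans (mul_assoc C0 _ _ ▸ mul_le_mul_of_nonneg_left (t.trans ?_) (by linarith))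
  simp only [div_eq_mul_inv] at *
  have : 0 ≤ C0 * ((ρ ^ 2)⁻¹ * |rd (Ψ x w) - rd (Ψ x w')|) := by positivity
  nlinarith [mul_nonneg this (sq_nonneg C0)]

theorem hT : ∀ r ≥ r1, ∀ ζ ∈ Icc (-1 : ℝ) 1, JD 2 (fun y : ℝ × ℝ => S (x.1, y)) (r, ζ) C0 ∧
    |fderiv ℝ (fun y : ℝ × ℝ => S (x.1, y)) (r, ζ) (1, 0)| ≤ 1 / 2 := fun r hr ζ hζ => by
  obtain ⟨a, b, c⟩ := h.sS r hr ζ hζ
  refine ⟨b, ?_⟩
  rw [show fderiv ℝ (fun y : ℝ × ℝ => S (x.1, y)) (r, ζ) = _ from ((a.differentiableAt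
    (by simp)).hasFDerivAt.comp (r, ζ) (hasFDerivAt_prodMk_right x.1 (r, ζ))).fderiv]
  exact c

/-- The level sets of the eikonal function. -/
theorem D3 (hw : w ∈ Wr s1 r1 ρ) (hw' : w' ∈ Wr s1 r1 ρ) {l M a d : ℝ} (hl : 1 / 2 ≤ l)
    (ha : |a| < M) (hM : M ≤ μ) (e : l * rd (Ψ x w) + psi M a (rd (Ψ x w)) +
      l * S (x.1, rd (Ψ x w), un (Ψ x w) 2) = l * rd (Ψ x w') + psi M a (rd (Ψ x w')) +
      l * S (x.1, rd (Ψ x w'), un (Ψ x w') 2) + d) :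
    |rd (Ψ x w) - rd (Ψ x w')| ≤ 4 * |d| + 2 * C0 * ‖un (Ψ x w) - un (Ψ x w')‖ := by
  have r := h.hρ.trans (h.r_ge hw)
  have r' := h.hρ.trans (h.r_ge hw')
  have t := abs_le.1 ((T_lip h.hT r r' (un_abs (h.r0 hw)) (un_abs (h.r0 hw'))).trans
    (add_le_add le_rfl (mul_le_mul_of_nonneg_left
      (PiLp.norm_apply_le (un (Ψ x w) - un (Ψ x w')) 2) (by linarith [h.hC]))))
  have p := fun r (hr : r1 ≤ r) => (del_ge ha (r := r) (by linarith [h.hμ])).1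
  have := abs_le.1 (le_refl |d|)
  have := abs_nonneg d
  rcases le_total (rd (Ψ x w)) (rd (Ψ x w')) with o | o
  · have := psi_mono ha (p _ r) o
    rw [abs_of_nonpos (sub_nonpos.2 o)] at *
    nlinarith
  · have := psi_mono ha (p _ r') o
    rw [abs_of_nonneg (sub_nonneg.2 o)] at *
    nlinarith

end Rx

end Vale.Agent.P354TS
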