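import Vale.Agent.P354TS.Ex0C

/-!
EX0, part D: the rays of Kerr in the far chart of the other Kerr metric.
-/

open scoped ContDiff
open Set Filter Topology

noncomputable section

namespace Vale.Agent.P354TS

open Vale.Agent.P354n (R4)
open Vale.Agent.P354H (X3)
open Vale.Agent.P354I (X P3 rm rp)
open Vale.Agent.P354E (sg st st_2 sg_sq)
open Vale.Agent.P354XE (rd xs)
open Vale.Agent.P354XA (psi rd_cd)
open Vale.Agent.P354SA (ps et Y2)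
open Vale.Agent.P354SC (qq qq_pos)

/-- A lower bound for the derivative from a lower Lipschitz bound. -/
theorem le_fd {E F : Type} [NormedAddCommGroup E] [NormedSpace ℝ E] [NormedAddCommGroup F]
    [NormedSpace ℝ F] {f : E → F} {f' : E →L[ℝ] F} {y : E} {C : ℝ} (h : HasFDerivAt f f' y)
    (k : ∀ᶠ y' in 𝓝 y, ‖y - y'‖ ≤ C * ‖f y - f y'‖) (v : E) : ‖v‖ ≤ C * ‖f' v‖ := by
  have d : HasDerivAt (fun t : ℝ => y + t • v) v 0 := by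
    simpa using ((hasDerivAt_id (0 : ℝ)).smul_const v).const_add y
  have e : y + (0 : ℝ) • v = y := by simp
  have t := hasDerivAt_iff_tendsto_slope_zero.1
    (HasFDerivAt.comp_hasDerivAt (f := fun t : ℝ => y + t • v) 0 (e.symm ▸ h) d)
  refine ge_of_tendsto (t.norm.const_mul C) ?_
  have k' : ∀ᶠ t : ℝ in 𝓝 0, ‖y - (y + t • v)‖ ≤ C * ‖f y - f (y + t • v)‖ :=
    d.continuousAt.eventually (p := fun y' => ‖y - y'‖ ≤ C * ‖f y - f y'‖) (by simpa only [e] using k)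
  filter_upwards [nhdsWithin_le_nhds k', self_mem_nhdsWithin] with t h1 h2
  have t0 : 0 < ‖t‖ := norm_pos_iff.2 h2
  rw [sub_add_cancel_left, norm_neg, norm_smul, norm_sub_rev] at h1
  simp only [Function.comp_apply, zero_add, zero_smul, add_zero, norm_smul, norm_inv]
  rw [mul_left_comm, ← div_eq_inv_mul, le_div_iff₀' t0]
  exact h1

theorem num1 {C A A' r n v d : ℝ} (c : 1 ≤ C) (a : A' ≤ A) (b : 4 * C * A ≤ 1) (r0 : 0 ≤ r)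
    (n0 : 0 ≤ n) (hv : v ≤ n) (h1 : d ≤ 4 * C * n + A * r) (h3 : r ≤ 4 * 0 + 16 * v + 2 * C * d) :
    r ≤ 48 * C ^ 2 * n ∧ d + A' * r ≤ 48 * C ^ 2 * n := by
  have a1 : 4 * C * (A * r) ≤ r := by nlinarith
  have c1 := mul_nonneg n0 (sub_nonneg.2 (one_le_pow₀ c (n := 2)))
  have a2 : r ≤ 48 * C ^ 2 * n := by nlinarith
  have a3 : A * r ≤ 12 * C * n := by nlinarith
  have a4 := mul_nonneg (mul_nonneg n0 (zero_le_one.trans c)) (sub_nonneg.2 c)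
  have a5 := mul_le_mul_of_nonneg_right a r0
  exact ⟨a2, by nlinarith [mul_nonneg n0 (sq_nonneg C)]⟩

theorem num2 {C A A' r e d : ℝ} (c : 1 ≤ C) (a : A' ≤ A) (b : 4 * C * A ≤ 1) (r0 : 0 ≤ r)
    (h3 : r ≤ 4 * 0 + 16 * 0 + 2 * C * d) (h4 : d ≤ 3 * e + A' * r) : d + A * r ≤ 9 * e := by
  have a1 : 4 * C * (A * r) ≤ r := by nlinarith
  have a2 : A * r ≤ d / 2 := by nlinarith
  nlinarith

/-- The position in the far chart. -/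
def Zw (M a : ℝ) (σ : Bool) (L : R4 → R4) (p : R4) : X3 := (rd p, et M a σ (L p))

/-- The rays, the isometry, and the eikonal identity. -/
structure Ax (p0 : P3) (k ε1 C0 s1 r1 : ℝ) (H : ℕ → P354RG.Y3 → ℝ) (b σ : Bool)
    (Ψ : P3 × ℝ → R4 → R4) (S : P354RG.Y3 → ℝ) (x : P3 × ℝ) (μ ρ M a l c T1 : ℝ) (L : R4 → R4)
    (O : X →ₗᵢ[ℝ] X) (τ : R4 → ℝ) : Prop where
  rx : Rx p0 k ε1 C0 s1 r1 H b σ Ψ S x μ ρ
  ha : |a| < M
  hM : M ≤ μ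
  hl : l ∈ Icc (1 / 2 : ℝ) 2
  hc : c ∈ Icc (1 / 2 : ℝ) 2
  hL : ∀ p, xs (L p) = O (xs p)
  hO : ‖O e3 - e3‖ ≤ 1 / (1 + 2 * C0 ^ 2)
  sL : ContDiff ℝ ∞ L
  id : ∀ w : R4, ‖w.2.2‖ ≤ 9 → s1 ≤ w.1 → l * rd (Ψ x w) + psi M a (rd (Ψ x w)) +
    l * S (x.1, rd (Ψ x w), un (Ψ x w) 2) = τ w + l * c * w.2.1 - T1

namespace Ax

variable {p0 : P3} {k ε1 C0 s1 r1 : ℝ} {H : ℕ → P354RG.Y3 → ℝ} {b σ : Bool}
  {Ψ : P3 × ℝ → R4 → R4} {S : P354RG.Y3 → ℝ} {x : P3 × ℝ} {μ ρ M a l c T1 : ℝ} {L : R4 → R4}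
  {O : X →ₗᵢ[ℝ] X} {τ : R4 → ℝ} (h : Ax p0 k ε1 C0 s1 r1 H b σ Ψ S x μ ρ M a l c T1 L O τ)
  {w w' p : R4}
include h

theorem rd_L (p : R4) : rd (L p) = rd p := by rw [rd, h.hL, O.norm_map, rd]

theorem un_L (p : R4) : un (L p) = O (un p) := by rw [un, un, h.rd_L, h.hL, map_smul]

theorem un_in (p : R4) : un p 2 = inner ℝ (O e3) (un (L p)) := by
  rw [h.un_L, O.inner_map_map, e3_in]

theorem near (hp : 0 < rd p) :
    sg σ * un p 2 - 1 / (1 + 2 * C0 ^ 2) ≤ sg σ * un (L p) 2 := by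
  have a : |un p 2 - un (L p) 2| ≤ 1 / (1 + 2 * C0 ^ 2) := by
    rw [h.un_in p, ← e3_in, ← inner_sub_left]
    refine (abs_real_inner_le_norm _ _).trans ?_
    rw [un_norm (hp.trans_eq (h.rd_L p).symm), mul_one]
    exact h.hO
  have := abs_le.1 a
  cases σ <;> simp only [sg, cond_true, cond_false] <;> linarith

theorem gap (hw : w ∈ Wr s1 r1 ρ) : 1 / (1 + 2 * C0 ^ 2) ≤ 1 + sg σ * un (L (Ψ x w)) 2 := by
  have := h.rx.gap hw (h.rx.gd hw).2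
  have := h.near (h.rx.r0 hw)
  simp only [div_eq_mul_inv] at *
  linarith

theorem r_ge (hw : w ∈ Wr s1 r1 ρ) : ρ ≤ rd (L (Ψ x w)) := (h.rx.r_ge hw).trans_eq (h.rd_L _).symm

theorem gd (hw : w ∈ Wr s1 r1 ρ) : Gd σ (L (Ψ x w)) :=
  ⟨(h.rx.r0 hw).trans_eq (h.rd_L _).symm, (lt_of_lt_of_le (by positivity) (h.gap hw)).ne'⟩

theorem et_le (hw : w ∈ Wr s1 r1 ρ) : ‖et M a σ (L (Ψ x w))‖ ≤ 2 * (1 + 2 * C0 ^ 2) := by
  have := h.gap hw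
  rw [(h.gd hw).gap M a, div_le_div_iff₀ (by positivity) (qq_pos _)] at this
  linarith [le_qq (et M a σ (L (Ψ x w)))]

theorem pole (hw : w ∈ Wr s1 r1 ρ) (y : ‖w.2.2‖ ≤ 3 / 5) :
    (2 * C0)⁻¹ ≤ 1 - (et M a σ (L (Ψ x w))).1 ^ 2 - (et M a σ (L (Ψ x w))).2 ^ 2 := by
  have a1 := h.rx.pole w y
  have a2 := h.near (h.rx.r0 hw)
  have c0 := h.rx.hC
  have a3 : 1 / (1 + 2 * C0 ^ 2) ≤ (2 * C0)⁻¹ := by
    rw [one_div]
    exact inv_anti₀ (by positivity) (by nlinarith)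
  have a4 : sg σ * un (L (Ψ x w)) 2 = (1 - (et M a σ (L (Ψ x w))).1 ^ 2 -
      (et M a σ (L (Ψ x w))).2 ^ 2) / qq (et M a σ (L (Ψ x w))) := by
    rw [(h.gd hw).un_eq M a]
    exact (congrArg _ (st_2 σ _)).trans (by rw [← mul_assoc, sg_sq, one_mul]; rfl)
  have a5 : (2 * C0)⁻¹ ≤ sg σ * un (L (Ψ x w)) 2 := by
    rw [← un_two] at a1
    rw [mul_inv] at *
    linarith
  rw [a4, le_div_iff₀ (qq_pos _)] at a5
  exact (le_mul_of_one_le_right (by positivity) (qq_one _)).trans a5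

theorem zt_eq (hw : w ∈ Wr s1 r1 ρ) :
    zt M a σ (O e3) (Zw M a σ L (Ψ x w)) = un (Ψ x w) 2 := by
  rw [zt_in, h.un_in, (h.gd hw).un_eq M a, h.rd_L, Zw]

theorem EE_eq (hw : w ∈ Wr s1 r1 ρ) : EE0 l M a σ (O e3) (fun y => S (x.1, y))
    (Zw M a σ L (Ψ x w)) = τ w + l * c * w.2.1 - T1 := by
  rw [EE0, h.zt_eq hw]
  exact h.id w hw.1 (h.rx.s_le hw)

theorem Z_cd (hw : w ∈ Wr s1 r1 ρ) : ContDiffAt ℝ ∞ (fun w => Zw M a σ L (Ψ x w)) w :=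
  ((rd_cd (h.rx.r0 hw).ne').comp w (h.rx.cd hw.1)).prodMk
    ((((h.gd hw).et_cd h.ha (del_ge h.ha (by
      linarith [h.r_ge hw, h.rx.hρ, h.rx.hμ, h.hM])).1).comp _
        h.sL.contDiffAt).comp w (h.rx.cd hw.1))

theorem D3 (hw : w ∈ Wr s1 r1 ρ) (hw' : w' ∈ Wr s1 r1 ρ) : |rd (Ψ x w) - rd (Ψ x w')| ≤
    4 * |τ w - τ w'| + 16 * |w.2.1 - w'.2.1| + 2 * C0 * ‖un (Ψ x w) - un (Ψ x w')‖ := by
  have a := h.rx.D3 hw hw' h.hl.1 h.ha h.hM (d := τ w - τ w' + l * c * (w.2.1 - w'.2.1)) (by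
    rw [h.id w hw.1 (h.rx.s_le hw), h.id w' hw'.1 (h.rx.s_le hw')]
    ring)
  have b := abs_add_le (τ w - τ w') (l * c * (w.2.1 - w'.2.1))
  have l1 := h.hl.1
  have c1 := h.hc.1
  rw [abs_mul, abs_of_pos (show 0 < l * c by positivity)] at b
  have := mul_le_mul_of_nonneg_right (mul_le_mul h.hl.2 h.hc.2 (by linarith) zero_le_two)
    (abs_nonneg (w.2.1 - w'.2.1))
  linarith

theorem un_d (p p' : R4) : ‖un (L p) - un (L p')‖ = ‖un p - un p'‖ := by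
  rw [h.un_L, h.un_L, ← map_sub, O.norm_map]

variable (hA : 24 * C0 * (C0 + μ) ≤ ρ ^ 2)
include hA

theorem small : 0 ≤ 6 * μ / ρ ^ 2 ∧ 6 * μ / ρ ^ 2 ≤ 6 * (C0 + μ) / ρ ^ 2 ∧
    4 * C0 * (6 * (C0 + μ) / ρ ^ 2) ≤ 1 := by
  have := h.rx.μ0
  have := h.rx.hC
  have : 0 < ρ ^ 2 := lt_of_lt_of_le (by positivity) hA
  refine ⟨by positivity, by gcongr; linarith, ?_⟩
  rw [← mul_div_assoc, div_le_one this]
  linarith

theorem lip (hw : w ∈ Wr s1 r1 ρ) (hw' : w' ∈ Wr s1 r1 ρ) (e : τ w = τ w') :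
    ‖Zw M a σ L (Ψ x w) - Zw M a σ L (Ψ x w')‖ ≤
      48 * C0 ^ 2 * (1 + 2 * (2 * (1 + 2 * C0 ^ 2)) ^ 2) * ‖w.2 - w'.2‖ := by
  have d1 := h.rx.D1 hw hw'
  have d3 := h.D3 hw hw'
  have d4 := ch2 (h.gd hw) (h.gd hw') h.ha h.hM (h.rx.hμ.trans h.rx.hρ)
    (h.r_ge hw) (h.r_ge hw') (h.et_le hw) (h.et_le hw')
  rw [h.un_d, h.rd_L, h.rd_L] at d4
  rw [e, sub_self, abs_zero] at d3
  have K1 : 1 ≤ 1 + 2 * (2 * (1 + 2 * C0 ^ 2)) ^ 2 := le_add_of_nonneg_right (by positivity)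
  have := num1 h.rx.hC (h.small hA).2.1 (h.small hA).2.2 (abs_nonneg _) (norm_nonneg _)
    (norm_fst_le (w.2 - w'.2)) d1 d3
  have n : 0 ≤ 48 * C0 ^ 2 * ‖w.2 - w'.2‖ := by positivity
  refine max_le (this.1.trans ?_) (d4.trans ((mul_le_mul_of_nonneg_left this.2
    (by positivity)).trans_eq (by ring)))
  exact (le_mul_of_one_le_right n K1).trans_eq (by ring)

theorem anti (hw : w ∈ Wr s1 r1 ρ) (hw' : w' ∈ Wr s1 r1 ρ) (e : τ w = τ w')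
    (e' : w.2.1 = w'.2.1) : ‖w.2.2 - w'.2.2‖ ≤
      9 * C0 * (1 + 2 * C0 ^ 2) * ‖et M a σ (L (Ψ x w)) - et M a σ (L (Ψ x w'))‖ := by
  have d2 := h.rx.D2 hw hw' e'
  have d3 := h.D3 hw hw'
  have d4 := ch1 (h.gd hw) (h.gd hw') h.ha h.hM (h.rx.hμ.trans h.rx.hρ)
    (h.r_ge hw) (h.r_ge hw')
  have c0 := h.rx.hC
  rw [h.un_d, h.rd_L, h.rd_L] at d4
  rw [e, e', sub_self, sub_self, abs_zero] at d3
  exact d2.trans ((mul_le_mul_of_nonneg_left (num2 c0 (h.small hA).2.1 (h.small hA).2.2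
    (abs_nonneg _) d3 d4) (by positivity)).trans_eq (by ring))

end Ax

end Vale.Agent.P354TS
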