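import Vale.Agent.P354UR.EDefs
import Vale.Agent.P354SN.Ru
import Vale.Agent.P354YC.Fr
import Vale.Agent.P354YI.Met

/-!
INF: bounds for the jets of the canonical frame on the slice.
-/

set_option linter.all false
set_option maxSynthPendingDepth 3

open scoped ContDiff
open Set Filter Topology Metric

noncomputable section

namespace Vale.Agent.P354TS

open Vale.Agent.P354n (R4 mink)
open Vale.Agent.P354I (X Dat pd ee)
open Vale.Agent.P354H (X3)
open Vale.Agent.P354RC (B2 bs cv)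
open Vale.Agent.P354XD (tb rp_tb)
open Vale.Agent.P354XE (Tw Lor eT pt xs Bd)
open Vale.Agent.P354XU (L4 chol)
open Vale.Agent.P354UR
open Vale.Agent.P354YC (fr UU fr_cd fr_on fr_inv fr_fst fr_pos mem_UU UU_open)
open Vale.Agent.P354YI (Oj)
open Vale.Agent.P354SN (fr_uq mink_T)

/-- The space part of a form, and the canonical frame as a function of the form. -/
def Hm (h : B2) : M3 := Matrix.of fun i k => h (bs i.succ) (bs k.succ)
def Ph (z : ℝ × B2) : L4 := Ef (z.1 • fr z.2 eT) (Hm z.2) fun i => bs i.succ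

variable {h : B2} {B c : ℝ} {v : R4}

theorem ph_cd {z : ℝ × B2} (k : z.2 ∈ UU) (P : Pd (Hm z.2)) : ContDiffAt ℝ ∞ Ph z := by
  have hH : ∀ i k, ContDiffAt ℝ ∞ (fun y : ℝ × B2 => Hm y.2 i k) z := fun i k =>
    (contDiffAt_snd.clm_apply contDiffAt_const).clm_apply contDiffAt_const
  have hv : ∀ i : Fin 3, ContDiffAt ℝ ∞ (fun _ : ℝ × B2 => bs i.succ) z := fun _ => contDiffAt_const
  have a : ContDiffAt ℝ ∞ (fun y : ℝ × B2 => chol (Hm y.2) 0 0) z := (hH 0 0).sqrt P.p0.ne'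
  have q := (hH 1 1).sub (((hH 0 1).pow 2).div (hH 0 0) P.p0.ne')
  have r := (hH 1 2).sub (((hH 0 1).mul (hH 0 2)).div (hH 0 0) P.p0.ne')
  have d : ContDiffAt ℝ ∞ (fun y : ℝ × B2 => chol (Hm y.2) 1 1) z := q.sqrt P.p1.ne'
  have b : ContDiffAt ℝ ∞ (fun y : ℝ × B2 => chol (Hm y.2) 0 1) z := (hH 0 1).div a P.pos.1.ne'
  have c : ContDiffAt ℝ ∞ (fun y : ℝ × B2 => chol (Hm y.2) 0 2) z := (hH 0 2).div a P.pos.1.ne'
  have e : ContDiffAt ℝ ∞ (fun y : ℝ × B2 => chol (Hm y.2) 1 2) z := r.div d P.pos.2.1.ne'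
  have f : ContDiffAt ℝ ∞ (fun y : ℝ × B2 => chol (Hm y.2) 2 2) z :=
    (((hH 2 2).sub (((hH 0 2).pow 2).div (hH 0 0) P.p0.ne')).sub
      ((r.pow 2).div q P.p1.ne')).sqrt P.p2.ne'
  have k0 := (a.inv P.pos.1.ne').smul (hv 0)
  have k1 := (d.inv P.pos.2.1.ne').smul ((hv 1).sub (b.smul k0))
  have k2 := (f.inv P.pos.2.2.ne').smul (((hv 2).sub (c.smul k0)).sub (e.smul k1))
  exact (((contDiffAt_const.smulRight (contDiffAt_fst.smul ((((fr_cd k).1.comp z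
    contDiffAt_snd)).clm_apply contDiffAt_const))).add (contDiffAt_const.smulRight k0)).add
      (contDiffAt_const.smulRight k1)).add (contDiffAt_const.smulRight k2)

theorem fr_perp (sy : ∀ a b, h a b = h b a) (k : h ∈ UU) (a : v.1 = 0) : h v (fr h eT) = 0 := by
  obtain ⟨u, rfl⟩ := (fr_inv sy k).surjective v
  rw [fr_fst] at a
  rw [fr_on sy k, mink_T, (mul_eq_zero.1 a).resolve_right (fr_pos k).ne', neg_zero]

theorem pd_hm (sy : ∀ a b, h a b = h b a) (sp : ∀ v : R4, v ≠ 0 → v.1 = 0 → 0 < h v v) :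
    Pd (Hm h) :=
  pd_of (v := fun i => bs i.succ) sy (fun _ _ => rfl) fun a b c k => sp _ (fun e => by
    simp [bs, Prod.ext_iff] at e
    tauto) (by simp [bs])

/-- A compact set of forms. -/
def KQ (B c : ℝ) : Set B2 :=
  Prod.fst '' ((closedBall 0 B ×ˢ sphere 0 1) ∩ {z : B2 × R4 | (∀ a b, z.1 a b = z.1 b a) ∧
    (∀ v : R4, v.1 = 0 → c * ‖v‖ ^ 2 ≤ z.1 v v) ∧ c ≤ ‖z.1 z.2‖ ∧ z.1 z.2 z.2 ≤ 0})

theorem KQ_cpt (B c : ℝ) : IsCompact (KQ B c) := by
  refine (((isCompact_closedBall _ _).prod (isCompact_sphere _ _)).inter_right ?_).image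
    continuous_fst
  simp only [ofPred_and, ofPred_forall]
  exact (isClosed_iInter fun _ => isClosed_iInter fun _ =>
    isClosed_eq (by fun_prop) (by fun_prop)).inter ((isClosed_iInter fun _ =>
      isClosed_iInter fun _ => isClosed_le (by fun_prop) (by fun_prop)).inter
        ((isClosed_le (by fun_prop) (by fun_prop)).inter (isClosed_le (by fun_prop) (by fun_prop))))

theorem KQ_sub (hc : 0 < c) (k : h ∈ KQ B c) : h ∈ UU ∧ Pd (Hm h) := by
  obtain ⟨⟨h, u⟩, ⟨-, sy, sp, nd, tl⟩, rfl⟩ := k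
  dsimp only at sy sp nd tl ⊢
  have sp' : ∀ v : R4, v ≠ 0 → v.1 = 0 → 0 < h v v := fun v v0 a =>
    (mul_pos hc (pow_pos (norm_pos_iff.2 v0) 2)).trans_le (sp v a)
  obtain ⟨w, hw⟩ : ∃ w, h u w ≠ 0 := by
    by_contra! e
    rw [show h u = 0 from ContinuousLinearMap.ext e, norm_zero] at nd
    exact nd.not_gt hc
  obtain ⟨t, ht⟩ : ∃ t, t * h u w = -(|h w w| + 1) := ⟨_, div_mul_cancel₀ _ hw⟩
  refine ⟨mem_UU sy sp' (u := t • u + w) ?_, pd_hm sy sp'⟩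
  simp only [map_add, map_smul, ContinuousLinearMap.add_apply, ContinuousLinearMap.smul_apply,
    smul_eq_mul, sy w u]
  nlinarith [mul_nonneg (mul_self_nonneg t) (neg_nonneg.2 tl), le_abs_self (h w w),
    abs_nonneg (h w w)]

theorem oj_cmp {J E V W : Type} [NormedAddCommGroup E] [NormedSpace ℝ E] [NormedAddCommGroup V]
    [NormedSpace ℝ V] [NormedAddCommGroup W] [NormedSpace ℝ W] {x : J → E} {f : J → E → V}
    {μ : J → ℝ} {m : ℕ} {G : J → V → W} (hf : Oj m x f 1) (hG : Oj m (fun j => f j (x j)) G μ) :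
    Oj m x (fun j y => G j (f j y)) μ := by
  cases m with
  | zero => exact .zero (fun j => (hG.sm j).comp _ (hf.sm j)) hG.nn (hG.val.imp fun _ h => h.2)
  | succ m => exact Oj.comp hf.sm _ hf.fd hG

theorem ph_bd (k : ℕ) (B : ℝ) (hc : 0 < c) : ∃ F, ∀ (g : Tw) (x : X3) (s : ℝ),
    (∀ v w, ContDiffAt ℝ ∞ (fun y => g y v w) (0, x)) → Bd k g (0, x) B → s ∈ Icc (-1 : ℝ) 1 →
    tb g (0, x) ∈ KQ B c → P354YI.Jb k (fun y : X3 => Ph (s, tb g (0, y))) x F := by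
  let J := {j : Tw × X3 × ℝ // (∀ v w, ContDiffAt ℝ ∞ (fun y => j.1 y v w) (0, j.2.1)) ∧
    Bd k j.1 (0, j.2.1) B ∧ j.2.2 ∈ Icc (-1 : ℝ) 1 ∧ tb j.1 (0, j.2.1) ∈ KQ B c}
  have h1 : Oj k (fun j : J => ((0, j.1.2.1) : R4)) (fun j => tb j.1.1) 1 :=
    (Oj.tb (μ := fun _ => B) (fun j : J => j.2.1) fun j => j.2.2.1).wt (c := B)
      (fun _ => zero_le_one) fun _ => (mul_one _).ge
  have h2 : Oj k (fun j : J => j.1.2.1) (fun j y => tb j.1.1 (0, y)) 1 :=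
    Oj.comp (f := fun _ y => ((0, y) : R4)) (fun _ => contDiffAt_const.prodMk contDiffAt_id) k
      ((Oj.cst (.inr ℝ ℝ X3)).congr' fun _ y => (hasFDerivAt_prodMk_right 0 y).fderiv) h1
  have h3 := oj_cmp ((Oj.const (v := fun j : J => j.1.2.2) (fun _ => zero_le_one)
    ⟨1, fun j => by simpa using abs_le.2 j.2.2.2.1⟩).pair h2)
    (Oj.fix (F := Ph) (isCompact_Icc.prod (KQ_cpt B c))
      (fun z k => ph_cd (KQ_sub hc k.2).1 (KQ_sub hc k.2).2)
      fun j : J => mk_mem_prod j.2.2.2.1 j.2.2.2.2)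
  obtain ⟨C, -, hC⟩ := h3.bd
  exact ⟨C * 1, fun g x s a b c d => hC ⟨(g, x, s), a, b, c, d⟩⟩

theorem pd_pt (i : Fin 3) (y : X) : pd i (pt 0) y = bs i.succ := by
  let L : X →L[ℝ] R4 := (0 : X →L[ℝ] ℝ).prod ((EuclideanSpace.proj 0).prod
      ((EuclideanSpace.proj 1).prod (EuclideanSpace.proj (2 : Fin 3))))
  have : HasFDerivAt (pt 0 : X → R4) L y := L.hasFDerivAt
  rw [pd, this.fderiv]
  fin_cases i <;> simp [L, ee, bs]

theorem mem_KQ (hc : 0 < c) (sy : ∀ a b, h a b = h b a) (b0 : ∀ v w, |h v w| ≤ B * (‖v‖ * ‖w‖))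
    (sp : ∀ v : R4, v.1 = 0 → c * ‖v‖ ^ 2 ≤ h v v) (nd : ∀ v, ∃ w, ‖w‖ ≤ 1 ∧ c * ‖v‖ ≤ h v w)
    (t0 : h v v < 0) : h ∈ KQ B c := by
  have n0 : 0 < ‖v‖ := norm_pos_iff.2 fun e => by simp [e] at t0
  have B0 : 0 ≤ B := by simpa [eT] using (abs_nonneg _).trans (b0 eT eT)
  have nu : ‖‖v‖⁻¹ • v‖ = 1 := by simp [norm_smul, n0.ne']
  obtain ⟨w, w1, w2⟩ := nd (‖v‖⁻¹ • v)
  rw [nu, mul_one] at w2
  refine ⟨(h, ‖v‖⁻¹ • v), ⟨⟨mem_closedBall_zero_iff.2 (h.opNorm_le_bound₂ B0 fun v w =>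
    (b0 v w).trans_eq (mul_assoc _ _ _).symm), mem_sphere_zero_iff_norm.2 nu⟩, sy, sp,
    w2.trans ((le_abs_self _).trans (((h _).le_opNorm w).trans
      (mul_le_of_le_one_right (norm_nonneg _) w1))), ?_⟩, rfl⟩
  simp only [map_smul, ContinuousLinearMap.smul_apply, smul_eq_mul]
  exact mul_nonpos_of_nonneg_of_nonpos (by positivity)
    (mul_nonpos_of_nonneg_of_nonpos (by positivity) t0.le)

variable {g : Tw} {D : Set R4} {Xf : R4 → R4} {p : R4}

theorem fr_nn (l : Lor g D Xf) (a : p ∈ D) (u : tb g p ∈ UU) :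
    g p (fr (tb g p) eT) (fr (tb g p) eT) = -1 := by
  have r := rp_tb l.isOpen l.met
  rw [r.eq _ a, fr_on (r.symm _ a) u, mink_T]
  rfl

/-- The canonical frame at a point. -/
theorem ph_eq (l : Lor g D Xf) (a : p ∈ D) (u : tb g p ∈ UU) {s : ℝ} (s1 : s * s = 1)
    (s2 : s * tb g p (fr (tb g p) eT) (Xf p) < 0) {F : L4} (on : ∀ v w, g p (F v) (F w) = mink v w)
    (fu : g p (F eT) (Xf p) < 0)
    (e : ∀ i, bs i.succ = F (pt 0 (WithLp.toLp 2 fun k => chol (Hm (tb g p)) k i))) :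
    F = Ph (s, tb g p) := by
  have r := rp_tb l.isOpen l.met
  have sy := r.symm _ a
  have P : Pd (Hm (tb g p)) := pd_hm sy fun v v0 z => r.eq _ a v v ▸
    pos_perp l a (by rw [fr_nn l a u]; norm_num) ((r.eq _ a _ _).trans (fr_perp sy u z)) v0
  refine fr_uq l a on (fun v w => ?_) fu ?_ P fun i =>
    (e i).symm.trans (P.ef _ (fun i => bs i.succ) i)
  · rw [r.eq _ a]
    refine P.on sy ?_ (fun i => ?_) (fun _ _ => rfl) v w
    · simp only [map_smul, ContinuousLinearMap.smul_apply, smul_eq_mul, ← r.eq _ a, fr_nn l a u]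
      linarith
    · rw [map_smul, fr_perp sy u (by fin_cases i <;> rfl), smul_zero]
  · rw [r.eq _ a]
    simpa [Ph, Ef_ap, eT] using s2

theorem ex_sg (l : Lor g D Xf) (a : p ∈ D) (u : tb g p ∈ UU) :
    ∃ s : ℝ, s * s = 1 ∧ ∀ᶠ q in 𝓝 p, s * tb g q (fr (tb g q) eT) (Xf q) < 0 := by
  have r := rp_tb l.isOpen l.met
  have ct := (r.at a).continuousAt
  have c : ContinuousAt (fun q => tb g q (fr (tb g q) eT) (Xf q)) p :=
    (ct.clm_apply (((fr_cd u).1.continuousAt.comp ct).clm_apply continuousAt_const)).clm_apply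
      (l.cont.continuousAt (l.isOpen.mem_nhds a))
  rcases lt_trichotomy (tb g p (fr (tb g p) eT) (Xf p)) 0 with k | k | k
  · exact ⟨1, one_mul _, (c.eventually_lt_const k).mono fun _ _ => by linarith⟩
  · have := pos_perp l a (l.tl _ a) ((r.eq _ a _ _).trans k) fun e => by
      simpa [e] using fr_pos u
    linarith [fr_nn l a u]
  · exact ⟨-1, by norm_num, (c.eventually_const_lt k).mono fun _ _ => by linarith⟩

theorem inf : INF := by
  intro k B c0 hc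
  obtain ⟨F, hF⟩ := ph_bd k B hc
  refine ⟨F, fun g D Xf d c Ω b E y l R m hi hM sp => ?_⟩
  have r := rp_tb l.isOpen l.met
  have mD : ∀ z, pt 0 z ∈ Ω → pt 0 z ∈ D := fun z a => (R.st z a).1 ▸ R.rol.maps a
  have m0 := mD y m
  have kq : tb g (pt 0 y) ∈ KQ B c0 := mem_KQ hc (r.symm _ m0)
    (fun v w => by simpa [r.eq _ m0] using hM.1 0 (Nat.zero_le _) v w)
    (fun v a => r.eq _ m0 v v ▸ sp v a) (fun v => by simpa only [r.eq _ m0] using hM.2 v)
    (r.eq _ m0 _ _ ▸ l.tl _ m0)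
  have u0 := (KQ_sub hc kq).1
  obtain ⟨s, s1, s2⟩ := ex_sg l m0 u0
  have cp : Tendsto (fun x : X3 => ((0, x) : R4)) (𝓝 (pt 0 y).2) (𝓝 (pt 0 y)) :=
    (continuous_const.prodMk continuous_id).tendsto _
  have cx : Tendsto (fun x : X3 => xs (0, x)) (𝓝 (pt 0 y).2) (𝓝 y) :=
    (xs_cd.continuous.comp (continuous_const.prodMk continuous_id)).tendsto' _ _ (xs_pt 0 y)
  refine (hF g (pt 0 y).2 s (fun v w => (l.met.smooth v w).contDiffAt (l.isOpen.mem_nhds m0))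
    hM.1 ⟨by nlinarith, by nlinarith⟩ kq).congr ?_
  filter_upwards [cp.eventually s2, cx.eventually hi, cp.eventually (R.rol.isOpen.mem_nhds m),
    cp.eventually ((r.at m0).continuousAt.eventually (UU_open.mem_nhds u0))]
    with x x1 ⟨G, n, x2⟩ x3 x4
  have a : ((0, x) : R4) ∈ D := mD (xs (0, x)) x3
  have st := R.st (xs (0, x)) x3
  have e : d.h (xs (0, x)) = Hm (tb g (0, x)) := Matrix.ext fun i j => by
    rw [← (x2.2.2.2 i j).2.1, pd_pt, pd_pt]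
    exact r.eq _ a _ _
  exact ph_eq l a x4 s1 x1 (fun v w => (congrArg (fun p => g p _ _) st.1).symm.trans
    (R.rol.on _ x3 v w)) st.2.1 fun i => e ▸ (pd_pt i _).symm.trans (st.2.2 i)

end Vale.Agent.P354TS
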