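import Vale.Agent.P354TS.OcB

/-!
OUTC from the statements over an abstract ring.
-/

open Set Filter

noncomputable section

namespace Vale.Agent.P354TS

open Vale.Agent.P354XG Vale.Agent.P354XD Vale.Agent.P354XR Vale.Agent.P354XI Vale.Agent.P354Z
open Vale.Agent.P354YK Vale.Agent.P354YO Vale.Agent.P354BO

variable {M0 a0 : ℝ} {J : Type} {φ : J → Ix M0 a0} {n : ℕ} {f g : ∀ j, (φ j).z.A} {μ ν : J → ℝ}

variable (φ) in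
/-- The points with the letters lr. -/
def E1 : Ev (∀ j, (φ j).z.A) := EEv φ (DD φ).T (DD_is φ).K.c0

theorem lr_ap (i : Fin 5) (f : ∀ j, (φ j).z.A) (j : J) :
    lx (DD φ) (DD φ).T i f j = (φ j).z.lr M0 i (f j) :=
  lx_ap (fun j => dt (φ j).z M0 a0) j (Y := (φ j).z.T) (fun _ => rfl) i f

theorem ob_of (p : ∀ j, 0 ≤ μ j) (e : ∀ j, f j = g j)
    (h : ∀ j, q2 ((φ j).z.lr M0) (φ j).x n (g j) ≤ μ j ^ 2) : (E1 φ).Ob n f μ :=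
  of_q2 lr_ap p fun j => (congrArg _ (e j)).trans_le (h j)

theorem wq_of (p : ∀ j, 0 ≤ μ j) (q : ∀ j, 0 ≤ ν j) (e : ∀ j, f j = g j)
    (h : ∀ j, (φ j).z.Wq M0 n (φ j).x (g j) (μ j) (ν j)) : (DD φ).Wq (E1 φ) n f μ ν :=
  ⟨ob_of p e fun j => (h j).1, ob_of q (fun j => congrArg (φ j).z.T (e j)) fun j => (h j).2⟩

theorem gq_of (p : ∀ j, 0 ≤ μ j) (q : ∀ j, 0 ≤ ν j) (e : ∀ j, f j = g j)
    (h : ∀ j, (φ j).z.Gq M0 n (φ j).x (g j) (μ j) (ν j)) : (DD φ).Gq (E1 φ) n f μ ν :=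
  ⟨ob_of p e fun j => (h j).1, ob_of q (fun j => congrArg ((φ j).z.r * ·) (e j)) fun j => (h j).2⟩

theorem wq_to (h : (DD φ).Wq (E1 φ) n f μ ν) (e : ∀ j, f j = g j) :
    ∀ᶠ C in atTop, ∀ j, (φ j).z.Wq M0 n (φ j).x (g j) (C * μ j) (C * ν j) := by
  filter_upwards [to_q2 lr_ap h.1, to_q2 lr_ap h.2] with C a b j
  exact e j ▸ ⟨a j, b j⟩

theorem wq1 (h : (DD φ).Wq (E1 φ) n f (ee φ * μ) (ee φ * ν)) (e : ∀ j, f j = g j) :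
    ∀ᶠ C in atTop, ∀ j, (φ j).z.Wq M0 n (φ j).x (g j) (C * (φ j).e * μ j) (C * (φ j).e * ν j) := by
  simp only [mul_assoc]
  exact wq_to h e

theorem wq0 (h : (DD φ).Wq (E1 φ) n f (ee φ) (ee φ * ν)) (e : ∀ j, f j = g j) :
    ∀ᶠ C in atTop, ∀ j, (φ j).z.Wq M0 n (φ j).x (g j) (C * (φ j).e) (C * (φ j).e * ν j) := by
  simp only [mul_assoc]
  exact wq_to h e

theorem q2_le {O : Set E6} {X : Fin 5 → Der (Sm (on O))} {x : E6} {u : Sm (on O)} {a b : ℝ}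
    (h : q2 X x n u ≤ a ^ 2) (p : 0 ≤ a) (e : a ≤ b) : ‖fv u x‖ ≤ b :=
  (abs_le_of_sq_le_sq' ((q2_val _ _ _ _).trans h) p).2.trans e

theorem far (hF : FARA) (h : |a0| < M0) (N : ℕ) {α γ : J → ℝ}
    (w : ∀ j, 0 ≤ α j ∧ α j ≤ γ j ∧ γ j ≤ 2 ∧ (φ j).x.2.1⁻¹ ≤ γ j)
    (t : ∀ j, (φ j).z.Tab M0 (N + 3) (φ j).x (φ j).e (α j) (γ j)) : ∀ᶠ C in atTop, ∀ j,
      (φ j).z.FarE M0 a0 N (dt (φ j).z M0 a0).β (φ j).x (C * (φ j).e) (α j) (γ j) := by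
  have pa : ∀ j, 0 ≤ (ee φ * α) j := fun j => mul_nonneg (φ j).e0 (w j).1
  have pg : ∀ j, 0 ≤ (ee φ * γ) j := fun j => mul_nonneg (φ j).e0 ((w j).1.trans (w j).2.1)
  have sg : ∀ j, (φ j).e * γ j ≤ 1 / 10 := fun j => by
    nlinarith [(φ j).e0, (φ j).e1, (w j).2.2.1]
  have sa : ∀ j, (φ j).e * α j ≤ 1 := fun j => by
    nlinarith [(φ j).e0, (φ j).e1, (w j).2.2.1, (w j).2.1]
  have s : ∀ i ≥ 2, ∀ j, ‖(E1 φ).ev j ((DD φ).r * (DD φ).dm i)‖ ≤ 1 / 10 := fun i hi j =>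
    (congrArg (fun u => ‖fv ((φ j).z.r * u) (φ j).x‖) (DD_dm φ i j)).trans_le
      (q2_le ((t j).g i hi).2 (pg j) (sg j))
  have F := hF _ (DD φ) (E1 φ) (ee φ) α γ (rr φ) N (DD_is φ)
    (pt φ h _ (fun _ e => e) fun j => q2_le ((t j).b 0 (by decide)) (pa j) (sa j))
    ⟨rfl, w, s 2 (by decide), s 3 (by decide),
      fun i hi => ob_of pa (DD_dn φ i) fun j => (t j).b i hi,
      ob_of pa (fun j => congrArg ((φ j).z.ri * ·) (DD_dn φ 1 j)) fun j => (t j).b1,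
      ob_of pa (DD_ds φ 4) fun j => (t j).kb,
      fun i hi => gq_of pa pg (DD_dm φ i) fun j => (t j).g i hi,
      gq_of pa pg (fun j => congrArg ((φ j).z.ri * ·) (DD_dm φ 1 j)) fun j => (t j).g1,
      fun i hi => gq_of pa pg (DD_ds φ i) fun j => (t j).gs i hi,
      fun i => wq_of (fun j => (φ j).e0) pa (fun j => congrArg₂ (· - ·)
        ((cp_R φ).gg (cp_O φ i) j) ((cp_R φ).gk (cp_O φ i) j)) fun j => (t j).la i⟩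
  have ft : ∀ j, (DD φ).ft j = (φ j).z.ft M0 a0 (dt (φ j).z M0 a0).β := fun j =>
    congrArg₂ (· - ·) ((cp_N φ).gg (cp_N φ) j) ((cp_T φ).g0 (cp_T φ) j)
  filter_upwards [eventually_all.2 fun i => wq0 (F.la i) fun j => congrArg₂ (· - ·)
      ((cp_R φ).gg (cp_O φ i) j) ((cp_R φ).g0 (cp_O φ i) j),
    eventually_all.2 fun i => wq1 (F.shift i).1 (DD_β φ i),
    eventually_all.2 fun i => wq1 (F.shift i).2 fun j => congrArg ((φ j).z.r * ·)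
      ((lr_ap 1 _ j).trans (congrArg _ (DD_β φ i j))),
    wq1 F.tt ft,
    eventually_all.2 fun i : {i : Fin 5 // i ≠ 0} => wq1 (F.tt' i i.2) fun j =>
      (lr_ap i _ j).trans (congrArg _ (ft j)),
    eventually_all.2 fun i => wq1 (F.ta i) fun j => congrArg ((φ j).z.ri * ·) (congrArg₂ (· - ·)
      ((cp_N φ).gg (cp_O φ i) j) ((cp_T φ).g0 (cp_O φ i) j)),
    eventually_all.2 fun i => eventually_all.2 fun k => wq0 (F.aa i k) fun j =>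
      congrArg ((φ j).z.ri * (φ j).z.ri * ·) (congrArg₂ (· - ·)
        ((cp_O φ i).gg (cp_O φ k) j) ((cp_O φ i).g0 (cp_O φ k) j))] with C a1 a2 a3 a4 a5 a6 a7 j
  exact ⟨fun i => a1 i j, fun i => ⟨a2 i j, a3 i j⟩, a4 j, fun i hi => a5 ⟨i, hi⟩ j,
    fun i => a6 i j, fun i k => a7 i k j⟩

theorem lay (hL : LAY) (h : |a0| < M0) (N : ℕ)
    (t : ∀ j, ∀ k ≠ 1, q2 (ll (hp _) (pO (φ j).z.O M0 (φ j).z.M (φ j).z.a)) (φ j).x (N + 3)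
      ((φ j).z.d M0 (.inl (1, k))) ≤ ((φ j).e / (φ j).x.2.1 ^ 2) ^ 2) : ∀ᶠ C in atTop, ∀ i j,
      (φ j).z.Wq M0 (N + 2) (φ j).x ((dt (φ j).z M0 a0).β i) (C * (φ j).e / (φ j).x.2.1 ^ 2)
        (C * (φ j).e / (φ j).x.2.1 ^ 3) := by
  have m : 0 < M0 := (abs_nonneg _).trans_lt h
  have p : ∀ j, 0 ≤ (φ j).e / (φ j).x.2.1 ^ 2 := fun j => div_nonneg (φ j).e0 (sq_nonneg _)
  have s : ∀ j, (φ j).e / (φ j).x.2.1 ^ 2 ≤ 1 := fun j => div_le_one_of_le₀ (by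
    nlinarith [(φ j).e3, (φ j).is.rad _ (φ j).hx]) (sq_nonneg _)
  have c : ∀ f, (DD φ).K.c (((DD φ).r • (DD φ).T) f) = ((DD φ).r • (DD φ).T) ((DD φ).K.c f) :=
    fun f => (map_mul _ _ _).trans (congrArg₂ (· * ·) (DD_is φ).K.z1 ((DD_is φ).K.c0 f))
  have L := hL _ (DD φ) (EEv φ _ c) (ee φ) (rr φ) (fun j => (φ j).e / (φ j).x.2.1 ^ 2) (N + 2)
    (E1 φ).X (E1 φ).c_X (DD_is φ)
    (pt φ h c (fun f e => (congrArg ((DD φ).r * ·) e).trans (mul_zero _))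
      fun j => q2_le (t j 0 (by decide)) (p j) (s j)) rfl rfl
    (fun i hi => by
      fin_cases i
      exacts [absurd rfl hi, rfl, rfl, rfl, rfl]) (Ev.Le.of (fun _ => zero_le_one) s)
    fun i hi => of_q2 (fun i f j => lx_ap (fun j => dt (φ j).z M0 a0) j
      (Y := (φ j).z.r • (φ j).z.T) (fun _ => rfl) i f) p
        fun j => (congrArg _ (DD_dn φ i j)).trans_le (t j i hi)
  filter_upwards [eventually_all.2 fun i => wq_to (L i) (DD_β φ i)] with C a i j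
  have e : C * (φ j).e / (φ j).x.2.1 ^ 3 = C * ((φ j).e / (φ j).x.2.1 ^ 2 * (φ j).x.2.1⁻¹) := by
    ring
  rw [e, mul_div_assoc]
  exact a i j

theorem outc_of (hB : BAS) (hL : LAY) (hF : FARA) : OUTC := by
  intro M0 a0 N h
  have m : 0 < M0 := (abs_nonneg _).trans_lt h
  obtain ⟨C, h1, h2⟩ := ((far (J := {q : Ix M0 a0 × ℝ × ℝ // (0 ≤ q.2.1 ∧ q.2.1 ≤ q.2.2 ∧
      q.2.2 ≤ 2 ∧ q.1.x.2.1⁻¹ ≤ q.2.2) ∧ q.1.z.Tab M0 (N + 3) q.1.x q.1.e q.2.1 q.2.2})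
      (φ := fun q => q.1.1) hF h N (fun q => q.2.1) fun q => q.2.2).and
    (lay (J := {q : Ix M0 a0 // ∀ k ≠ 1, q2 (ll (hp _) (pO q.z.O M0 q.z.M q.z.a)) q.x (N + 3)
      (q.z.d M0 (.inl (1, k))) ≤ (q.e / q.x.2.1 ^ 2) ^ 2}) (φ := fun q => q.1) hL h N
      fun q => q.2)).exists
  refine ⟨min (1 / 20) (min (5 * M0) (36 * M0 ^ 2)), by positivity, C, fun z hz =>
    ⟨(dt z M0 a0).β, fun i => ⟨(hB _ _ (dt_is hz) i).1, (hB _ _ (dt_is hz) i).2⟩,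
      fun x hx n e he par => ?_⟩⟩
  obtain ⟨e1, e2, e3⟩ : e ≤ 1 / 20 ∧ e ≤ 5 * M0 ∧ e ≤ 36 * M0 ^ 2 := by
    simpa only [le_min_iff] using he.2
  exact ⟨fun α γ w1 w2 w3 w4 t =>
    h1 ⟨(⟨z, x, e, hz, hx, n, he.1, e1, e2, e3, par⟩, α, γ), ⟨w1, w2, w3, w4⟩, t⟩,
    fun t i => h2 i ⟨⟨z, x, e, hz, hx, n, he.1, e1, e2, e3, par⟩, t⟩⟩

end Vale.Agent.P354TS
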