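import Vale.Agent.P354YO.Dt
import Vale.Agent.P354YK.La
import Vale.Agent.P354YK.Pi

/-!
The data of the estimates far out from a frame in the outgoing gauge.
-/

noncomputable section

namespace Vale.Agent.P354TS

open Vale.Agent.P354XG Vale.Agent.P354XG.Geo Vale.Agent.P354XD Vale.Agent.P354XR Vale.Agent.P354Z
open Vale.Agent.P354YK Vale.Agent.P354YO

variable {A : Type} [CommRing A] [Algebra ℂ A] {K : Hp A} {p : Pm A} {S : Geo A} {F : Fr A}

/-- The four fields, and the vector with given components. -/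
def b4 (k : KC A) : Fin 4 → Der A := ![k.T, k.R, k.P, k.Q]
def pv (K : Hp A) (p : Pm A) (x : Vec A) : Vec A := ∑ a, x a • K.prj (b4 (kk K p) a)

theorem prj_V (h : K.Is) (e0 e1 e2 e3 e4 e5 : A) :
    K.prj ((kk K p).V e0 e1 e2 e3 e4 e5) = pv K p ![e0, e1, e2, e3] := funext fun a => by
  have := h.tco a
  simp only [Hp.prj, dv, KC.V_ap, pv, Fin.sum_univ_four, b4, Matrix.cons_val, Pi.add_apply,
    Pi.smul_apply, smul_eq_mul]
  rw [show (kk K p).H (K.co a) = 0 from this.2.2.2.2.1,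
    show (kk K p).B (K.co a) = 0 from this.2.2.2.2.2, mul_zero, mul_zero, add_zero, add_zero]

theorem pv_T : pv K p (eT A) = K.prj (K.d 0) := by
  simp only [pv, eT, Fin.sum_univ_four, b4, Matrix.cons_val, one_smul, zero_smul, add_zero]
  rfl

theorem pv_R : pv K p (eR A) = K.prj (kk K p).R := by
  simp only [pv, eR, Fin.sum_univ_four, b4, Matrix.cons_val, one_smul, zero_smul, add_zero,
    zero_add]

theorem pv_O (h : K.Is) (i : Fin 3) : pv K p (eO K i) = K.prj (Om K i) := by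
  rw [eO, ← prj_V h _ _ _ _ (-(hf A * ii A * ww K i)) (hf A * ii A * ww K i), kk_V, Om_V h]
  simp only [zero_mul, sub_zero, add_zero]

theorem pv_N (h : K.Is) (β : Fin 3 → A) :
    pv K p (eT A + ∑ i, β i • eO K i) = K.prj (K.d 0 + ∑ i, β i • Om K i) := by
  have e : K.prj (K.d 0 + ∑ i, β i • Om K i) = K.prj (K.d 0) + ∑ i, β i • K.prj (Om K i) :=
    funext fun a => by simp [Hp.prj, dv, Fin.sum_univ_three]
  simp only [e, ← pv_T (p := p), ← pv_O (p := p) h]
  simp only [pv, Fin.sum_univ_four, Fin.sum_univ_three, Pi.add_apply, Pi.smul_apply, smul_eq_mul]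
  module

/-- The metric on the four fields. -/
def gaS (K : Hp A) (p : Pm A) (S : Geo A) (a b : Fin 4) : A :=
  2 * S.dot (K.prj (b4 (kk K p) a)) (K.prj (b4 (kk K p) b))

theorem bl_S (x y : Vec A) : bl (gaS K p S) x y = 2 * S.dot (pv K p x) (pv K p y) := by
  simp only [bl, gaS, pv, Fin.sum_univ_four, dot_add_left, dot_add_right, dot_smul_left,
    dot_smul_right]
  ring

theorem bl_K (k : KC A) (x y : Vec A) :
    bl (gaK k) x y = gBo k (x 0) (x 1) (x 2) (x 3) (y 0) (y 1) (y 2) (y 3) := by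
  simp only [bl, gaK, gBo, KC.qf, Fin.sum_univ_four, Matrix.cons_val]
  ring

theorem bl_O (h : K.Is) (Γ : Fin 4 → Fin 4 → Fin 4 → A) (x y : Vec A) :
    bl (gaK (kk K p)) x y = 2 * (K.geo (gO K p) Γ).dot (pv K p x) (pv K p y) := by
  have e : ∀ x : Vec A, pv K p x = K.prj ((kk K p).V (x 0) (x 1) (x 2) (x 3) 0 0) := fun x => by
    rw [prj_V h]
    congr 1
    funext i
    fin_cases i <;> rfl
  rw [bl_K, e, e, dot_O h, ← mul_assoc, two_hf, one_mul]

/-- The data. -/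
def dtO (K : Hp A) (p p0 : Pm A) (S : Geo A) (F : Fr A) : Dt A where
  K := K
  p := p
  p0 := p0
  q := ⟨F.ghp S, cm K p (F.ghp S).tp, cm K p (F.ghp S).et, gaS K p S,
    Ring.inverse (K.N * cm K p (F.ghp S).tp 0)⟩
  w := Ring.inverse (K.N * onc (kk K p) 0)

theorem unit_onc (h : K.Is) (q : p.Is K) (u : IsUnit (kk K p).W) :
    IsUnit (K.N * onc (kk K p) 0) := by
  have k := kk_is h q
  have e : K.N * onc (kk K p) 0 = 2 * (kk K p).sg * (kk K p).W := by
    show (kk K p).N * (2 * (kk K p).Ni * _ * _) = _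
    linear_combination 2 * (kk K p).sg * (kk K p).W * k.hN
  rw [e]
  exact ((IsUnit.of_mul_eq_one _ (two_hf (A := A))).mul (IsUnit.of_mul_eq_one _ k.hg)).mul u

theorem dtO_is (o : Og K p S F) {p0 : Pm A} (q0 : p0.Is K) (j1 : p.j1 = 0)
    (ta : (F.ghp S).ta' = (kk K p).ta2) (u : IsUnit (cm K p (F.ghp S).tp 0))
    (w : IsUnit (kk K p).W) : (dtO K p p0 S F).Is := by
  have h := o.is
  have k := kk_is h o.pis
  have N := o.wn.toNull
  have l : pv K p (Pr.vl (dtO K p p0 S F).k) = F.l := by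
    rw [← o.prj4.1, o.th, oth, prj_V h]; rfl
  have n : pv K p (dtO K p p0 S F).q.vn = F.n := by
    rw [← o.prj4.2.1, o.tp_eq, prj_V h]; rfl
  have m : pv K p (dtO K p p0 S F).q.vm = F.m := by
    rw [← o.prj4.2.2.1, o.et_eq, prj_V h]; rfl
  have b : pv K p ((dtO K p p0 S F).q.vb (dtO K p p0 S F).k) = F.mb := by
    have e := o.et_eq
    have a := o.prj4.2.2.1
    rw [← N.c_m, ← a]
    obtain ⟨g, Γ, rfl⟩ := o.geo
    rw [cv_prj h g Γ fun f => (congrArg K.c (DFunLike.congr_fun e f)).trans (k.c_V ..), prj_V h]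
    rfl
  have s : ∀ x y, bl (dtO K p p0 S F).q.γ x y = 2 * S.dot (pv K p x) (pv K p y) := bl_S
  refine ⟨h, o.pis, q0, j1, ⟨k, kk_free h p, o.ghp_is, o.cHB.1, o.cHB.2.1, o.cHB.2.2, o.th,
    o.tp_eq, o.et_eq, ta, fun a b => congrArg (2 * ·) (o.hS.dot_comm _ _), ?_, ?_, ?_, ?_, ?_, ?_,
    ?_, ?_, ?_, ?_, ?_, Ring.mul_inverse_cancel _ ((IsUnit.of_mul_eq_one _ h.hN).mul u)⟩,
    Ring.mul_inverse_cancel _ (unit_onc h o.pis w)⟩
  · exact (s _ _).trans (by rw [l, N.ll, mul_zero])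
  · exact (s _ _).trans (by rw [l, n, N.ln]; ring)
  · exact (s _ _).trans (by rw [l, m, N.lm, mul_zero])
  · exact (s _ _).trans (by rw [l, b, N.lmb o.hS, mul_zero])
  · exact (s _ _).trans (by rw [n, N.nn, mul_zero])
  · exact (s _ _).trans (by rw [n, m, N.nm, mul_zero])
  · exact (s _ _).trans (by rw [n, b, N.nmb o.hS, mul_zero])
  · exact (s _ _).trans (by rw [m, N.mm, mul_zero])
  · exact (s _ _).trans (by rw [m, b, N.mmb, mul_one])
  · exact (s _ _).trans (by rw [b, N.mbmb o.hS, mul_zero])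
  · have e : F.l = K.N • K.prj (kk K p).R := by
      rw [← o.prj4.1, o.th]; exact funext fun a => oth_ap _ _
    have t := o.lT
    rw [e, dot_smul_left] at t
    show 2 * S.dot (K.prj (kk K p).R) (K.prj (K.d 0)) = -1
    linear_combination K.Ni * t - (1 + 2 * S.dot (K.prj (kk K p).R) (K.prj (K.d 0))) * h.hN

theorem dtO_dn (h : K.Is) (p0 : Pm A) (i : Fin 6) : (dtO K p p0 S F).dn i =
    dat K p (F.ghp S) (.inl (1, i)) - dat K p (out (kk K p)) (.inl (1, i)) :=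
  congrArg (_ - ·) (congrFun (cm_V h ..) i).symm

theorem dtO_dm (h : K.Is) (p0 : Pm A) (i : Fin 6) : (dtO K p p0 S F).dm i =
    dat K p (F.ghp S) (.inl (2, i)) - dat K p (out (kk K p)) (.inl (2, i)) :=
  congrArg (_ - ·) (congrFun (cm_V h ..) i).symm

/-- The letters. -/
def lx (D : Dt A) (X : Der A) : Fin 5 → Der A := ![X, D.r • D.k.R, Om D.K 0, Om D.K 1, Om D.K 2]

theorem c_lx {D : Dt A} (h : D.Is) {X : Der A} (e : ∀ f, D.K.c (X f) = X (D.K.c f)) (i : Fin 5)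
    (f : A) : D.K.c (lx D X i f) = lx D X i (D.K.c f) := by
  fin_cases i
  · exact e f
  · exact (map_mul _ _ _).trans (congrArg₂ (· * ·) h.K.z1 (h.q.kc.c_R f))
  exacts [c_Om h.K 0 f, c_Om h.K 1 f, c_Om h.K 2 f]

section pi
variable {J : Type} {B : J → Type} [∀ j, CommRing (B j)] [∀ j, Algebra ℂ (B j)]

/-- The product. -/
def dtP (D : ∀ j, Dt (B j)) : Dt (∀ j, B j) where
  K := hpi fun j => (D j).K
  p := ppi fun j => (D j).p
  p0 := ppi fun j => (D j).p0
  q := ⟨gpi fun j => (D j).q.G, fun i j => (D j).q.n i, fun i j => (D j).q.m i,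
    fun a b j => (D j).q.γ a b, fun j => (D j).q.v⟩
  w j := (D j).w

variable (D : ∀ j, Dt (B j)) (j : J)

theorem R_ap (f : ∀ j, B j) : (dtP D).k.R f j = (D j).k.R (f j) := by
  rw [Dt.k, kk_R, Dt.k, kk_R]
  rfl

theorem V_ap (e0 e1 e2 e3 e4 e5 f : ∀ j, B j) : (dtP D).k.V e0 e1 e2 e3 e4 e5 f j =
    (D j).k.V (e0 j) (e1 j) (e2 j) (e3 j) (e4 j) (e5 j) (f j) := by
  rw [KC.V_ap, KC.V_ap, ← R_ap]
  rfl

theorem lx_ap {X : Der (∀ j, B j)} {Y : Der (B j)} (e : ∀ f, X f j = Y (f j)) (i : Fin 5)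
    (f : ∀ j, B j) : lx (dtP D) X i f j = lx (D j) Y i (f j) := by
  fin_cases i
  · exact e f
  · exact congrArg ((D j).r * ·) (R_ap D j f)
  exacts [hhom_Om (hpi_hom _ j) 0 f, hhom_Om (hpi_hom _ j) 1 f, hhom_Om (hpi_hom _ j) 2 f]

omit [∀ j, Algebra ℂ (B j)] in
theorem bl_ap (γ : Fin 4 → Fin 4 → ∀ j, B j) (x y : Vec (∀ j, B j)) {γ' : Fin 4 → Fin 4 → B j}
    {x' y' : Vec (B j)} (e : ∀ a b, γ a b j = γ' a b) (e1 : ∀ a, x a j = x' a)
    (e2 : ∀ a, y a j = y' a) : bl γ x y j = bl γ' x' y' := by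
  simp only [bl, Finset.sum_apply, Pi.mul_apply, e, e1, e2]

theorem vl_ap (a : Fin 4) : Pr.vl (dtP D).k a j = Pr.vl (D j).k a := by fin_cases a <;> rfl
theorem vn_ap (a : Fin 4) : (dtP D).q.vn a j = (D j).q.vn a := by fin_cases a <;> rfl
theorem vm_ap (a : Fin 4) : (dtP D).q.vm a j = (D j).q.vm a := by fin_cases a <;> rfl
theorem vb_ap (a : Fin 4) : (dtP D).q.vb (dtP D).k a j = (D j).q.vb (D j).k a := by
  fin_cases a <;> rfl

variable {D} in
theorem dtP_is (h : ∀ j, (D j).Is) : (dtP D).Is := by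
  have a : ∀ {X Y : Der (∀ j, B j)}, (∀ f j, X f j = Y f j) → X = Y := fun e =>
    Derivation.ext fun f => funext (e f)
  have k := hpi_is fun j => (h j).K
  have q := ppi_is fun j => (h j).p
  have b : ∀ {x y : Vec (∀ j, B j)} {x' y' : ∀ j, Vec (B j)} {c : ∀ j, B j},
      (∀ j a, x a j = x' j a) → (∀ j a, y a j = y' j a) →
      (∀ j, bl (D j).q.γ (x' j) (y' j) = c j) → bl (dtP D).q.γ x y = c := fun e1 e2 e =>
    funext fun j => (bl_ap j _ _ _ (fun _ _ => rfl) (e1 j) (e2 j)).trans (e j)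
  refine ⟨k, q, ppi_is fun j => (h j).p0, funext fun j => (h j).j1, ⟨kk_is k q, kk_free k _,
    gpi_is fun j => (h j).q.is, congrArg cpi (funext fun j => (h j).q.c), a fun f j => ?_,
    a fun f j => ?_, a fun f j => ?_, a fun f j => ?_, a fun f j => ?_,
    funext fun j => (h j).q.ta, fun a b => funext fun j => (h j).q.sym a b,
    b (vl_ap D) (vl_ap D) fun j => (h j).q.ll, b (vl_ap D) (vn_ap D) fun j => (h j).q.ln,
    b (vl_ap D) (vm_ap D) fun j => (h j).q.lm, b (vl_ap D) (vb_ap D) fun j => (h j).q.lb,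
    b (vn_ap D) (vn_ap D) fun j => (h j).q.nn, b (vn_ap D) (vm_ap D) fun j => (h j).q.nm,
    b (vn_ap D) (vb_ap D) fun j => (h j).q.nb, b (vm_ap D) (vm_ap D) fun j => (h j).q.mm,
    b (vm_ap D) (vb_ap D) fun j => (h j).q.mb, b (vb_ap D) (vb_ap D) fun j => (h j).q.bb,
    funext fun j => (h j).q.RT, funext fun j => (h j).q.hv⟩, funext fun j => (h j).w⟩
  · exact (DFunLike.congr_fun (h j).q.H (f j)).trans ((hpi_hom (fun j => (D j).K) j).H f).symm
  · exact (DFunLike.congr_fun (h j).q.B (f j)).trans ((hpi_hom (fun j => (D j).K) j).Bf f).symm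
  · rw [oth, V_ap]
    exact DFunLike.congr_fun (h j).q.th (f j)
  · rw [V_ap]
    exact DFunLike.congr_fun (h j).q.tp (f j)
  · rw [V_ap]
    exact DFunLike.congr_fun (h j).q.et (f j)

theorem dn_ap (i : Fin 6) : (dtP D).dn i j = (D j).dn i := by fin_cases i <;> rfl
theorem dm_ap (i : Fin 6) : (dtP D).dm i j = (D j).dm i := by fin_cases i <;> rfl
theorem ds_ap (i : Fin 13) : (dtP D).ds i j = (D j).ds i := by fin_cases i <;> rfl
theorem β_ap (i : Fin 3) : (dtP D).β i j = (D j).β i := by fin_cases i <;> rfl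
omit [∀ j, Algebra ℂ (B j)] in
theorem eT_ap (a : Fin 4) : eT (∀ j, B j) a j = eT (B j) a := by fin_cases a <;> rfl
omit [∀ j, Algebra ℂ (B j)] in
theorem eR_ap (a : Fin 4) : eR (∀ j, B j) a j = eR (B j) a := by fin_cases a <;> rfl
theorem eO_ap (i : Fin 3) (a : Fin 4) : eO (dtP D).K i a j = eO (D j).K i a := by
  fin_cases i <;> fin_cases a <;> rfl
theorem Nd_ap (a : Fin 4) : (dtP D).Nd a j = (D j).Nd a := by
  simp only [Dt.Nd, Pi.add_apply, Finset.sum_apply, Pi.smul_apply, smul_eq_mul, Pi.mul_apply,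
    eT_ap, eO_ap, β_ap]

variable {x y : Vec (∀ j, B j)} {x' y' : Vec (B j)} (e1 : ∀ a, x a j = x' a)
  (e2 : ∀ a, y a j = y' a)
include e1 e2

theorem gg_ap : (dtP D).gg x y j = (D j).gg x' y' := bl_ap j _ _ _ (fun _ _ => rfl) e1 e2
theorem gk_ap : (dtP D).gk x y j = (D j).gk x' y' :=
  bl_ap j _ _ _ (fun a b => by fin_cases a <;> fin_cases b <;> rfl) e1 e2
theorem g0_ap : (dtP D).g0 x y j = (D j).g0 x' y' :=
  bl_ap j _ _ _ (fun a b => by fin_cases a <;> fin_cases b <;> rfl) e1 e2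

end pi

end Vale.Agent.P354TS
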