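import Vale.Agent.P354TS.OcA
import Vale.Agent.P354YO.Fn
import Vale.Agent.P354YK.Box
import Vale.Agent.P354BO.Q2

/-!
The far zone as data of the estimates, families of points, and the uniform bounds.
-/

open Set Filter

noncomputable section

namespace Vale.Agent.P354TS

open Vale.Agent.P354XG Vale.Agent.P354XD Vale.Agent.P354XR Vale.Agent.P354XI Vale.Agent.P354Z
open Vale.Agent.P354YK Vale.Agent.P354YO Vale.Agent.P354BO

section ev
variable {J : Type} {O : J → Set E6} (x : ∀ j, O j) (X : Fin 5 → Der (∀ j, Sm (on (O j))))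
  (c : ∀ i f, cpi (fun _ => cj) (X i f) = X i (cpi (fun _ => cj) f))

/-- A family of points. -/
def evq : Ev (∀ j, Sm (on (O j))) where
  J := J
  ev j := (evO (x j)).comp (Pi.evalRingHom _ j)
  X := X
  c := cpi fun _ => cj
  alg j z := fv_alg z (x j).2
  ev_c j f := fv_cj (f j) (x j)
  c_X := c

variable {x X c} {Y : ∀ j, Fin 5 → Der (Sm (on (O j)))} (e : ∀ i f j, X i f j = Y j i (f j))
  {μ : J → ℝ}
include e

theorem of_q2 (p : ∀ j, 0 ≤ μ j) : ∀ {n : ℕ} {f : ∀ j, Sm (on (O j))},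
    (∀ j, q2 (Y j) (x j) n (f j) ≤ μ j ^ 2) → (evq x X c).Ob n f μ := by
  have b : ∀ {n : ℕ} {f : ∀ j, Sm (on (O j))}, (∀ j, q2 (Y j) (x j) n (f j) ≤ μ j ^ 2) →
      (evq x X c).Bd f μ := fun h => ⟨p, 1, fun j => (abs_le_of_sq_le_sq' ((q2_val _ _ _ _).trans
        (h j)) (p j)).2.trans_eq (one_mul _).symm⟩
  intro n
  induction n with
  | zero => exact b
  | succ n ih =>
    exact fun h => ⟨b h, fun i => ih fun j =>
      (congrArg _ (e i _ j)).trans_le ((q2_der _ _ _ _ _).trans (h j))⟩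

theorem to_q2 : ∀ {n : ℕ} {f : ∀ j, Sm (on (O j))}, (evq x X c).Ob n f μ →
    ∀ᶠ C in atTop, ∀ j, q2 (Y j) (x j) n (f j) ≤ (C * μ j) ^ 2 := by
  have k : ∀ {n : ℕ} {f : ∀ j, Sm (on (O j))}, (evq x X c).Ob n f μ →
      ∀ᶠ C in atTop, ∀ j, q2 (Y j) (x j) n (f j) ≤ C * μ j ^ 2 := by
    intro n
    induction n with
    | zero =>
      rintro f ⟨p, C, h⟩
      filter_upwards [eventually_ge_atTop (C ^ 2)] with D hD j
      exact (pow_le_pow_left₀ (norm_nonneg _) (h j) 2).trans ((mul_pow _ _ _).trans_le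
        (mul_le_mul_of_nonneg_right hD (sq_nonneg _)))
    | succ n ih =>
      intro f h
      obtain ⟨C, a, b⟩ := ((ih h.pred).and (eventually_all.2 fun i => ih (h.der i))).exists
      filter_upwards [eventually_ge_atTop (6 * C)] with D hD j
      have s : ∑ i, q2 (Y j) (x j) n (Y j i (f j)) ≤ ∑ _i : Fin 5, C * μ j ^ 2 :=
        Finset.sum_le_sum fun i _ => (congrArg _ (e i f j).symm).trans_le (b i j)
      rw [Finset.sum_const, Finset.card_fin, nsmul_eq_mul] at s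
      rw [q2_succ]
      push_cast at s
      nlinarith [a j, mul_le_mul_of_nonneg_right hD (sq_nonneg (μ j))]
  intro n f h
  filter_upwards [k h, eventually_ge_atTop 1] with C a b j
  rw [mul_pow]
  exact (a j).trans (mul_le_mul_of_nonneg_right (by nlinarith) (sq_nonneg _))

end ev

theorem lT_of {A : Type} [CommRing A] [Algebra ℂ A] {K : Hp A} {p : Pm A} {F : Fr A} (h : K.Is)
    {g : Fin 4 → Fin 4 → A} {Γ : Fin 4 → Fin 4 → Fin 4 → A}
    (t : (F.ghp (K.geo g Γ)).th = oth (kk K p))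
    (e : 2 * (K.geo g Γ).dot (K.prj (kk K p).R) (K.prj (K.d 0)) = -1) :
    2 * (K.geo g Γ).dot F.l (K.prj (K.d 0)) = -K.N := by
  have l : F.l = K.N • K.prj (kk K p).R :=
    ((prj_act h _).symm.trans (congrArg K.prj t)).trans (funext fun a => oth_ap _ _)
  rw [l, Geo.dot_smul_left]
  linear_combination K.N * e

variable {M0 a0 : ℝ} {z : Fz}

/-- The data of the far zone. -/
def dt (z : Fz) (M0 a0 : ℝ) : Dt z.A :=
  dtO (hp _) (pO z.O M0 z.M z.a) (pO z.O M0 M0 a0) (ge z.O z.g) z.F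

theorem og (h : z.Is M0) : Og (hp _) (pO z.O M0 z.M z.a) (ge z.O z.g) z.F where
  is := cone_is h.co
  pis := pO_is h.co _ _ _
  geo := ⟨_, _, rfl⟩
  hS := geo_is (cone_pos h.co).off _ (on_of h.co.op h.vac)
  wn := h.wn
  th := h.th
  ka := h.ka
  lT := lT_of (cone_is h.co) h.th h.RT

theorem dt_is (h : z.Is M0) : (dt z M0 a0).Is :=
  dtO_is (og h) (pO_is h.co _ _ _) rfl h.ta h.unit ((((rs_z 1).mul (rs_z 1)).add
    ((rs_cst _).mul (rs_cst _))).unit ((cone_pos h.co).mono fun p e => by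
      have : (0 : ℝ) < p.2.2.1 * p.2.2.1 + z.a * z.a :=
        add_pos_of_pos_of_nonneg (mul_pos e.1 e.1) (mul_self_nonneg _)
      show (p.2.2.1 : ℂ) * p.2.2.1 + z.a * z.a ≠ 0
      exact_mod_cast this.ne'))

section dict
variable (h : z.Is M0)
include h

theorem dt_dn (i : Fin 6) : (dt z M0 a0).dn i = z.d M0 (.inl (1, i)) := dtO_dn (cone_is h.co) _ i
theorem dt_dm (i : Fin 6) : (dt z M0 a0).dm i = z.d M0 (.inl (2, i)) := dtO_dm (cone_is h.co) _ i

variable {x y : Vec z.A} {X Y : Der z.A} (e1 : pv (hp _) (pO z.O M0 z.M z.a) x = (hp _).prj X)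
  (e2 : pv (hp _) (pO z.O M0 z.M z.a) y = (hp _).prj Y)
include e1 e2

omit h in
theorem dt_gg : (dt z M0 a0).gg x y = z.gg X Y := (bl_S x y).trans (by rw [e1, e2]; rfl)
theorem dt_gk : (dt z M0 a0).gk x y = z.gk M0 z.M z.a X Y :=
  (bl_O (cone_is h.co) (fun _ _ _ => 0) x y).trans (by rw [Fz.gk, ← e1, ← e2]; rfl)
theorem dt_g0 : (dt z M0 a0).g0 x y = z.gk M0 M0 a0 X Y :=
  (bl_O (cone_is h.co) (fun _ _ _ => 0) x y).trans (by rw [Fz.gk, ← e1, ← e2]; rfl)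

end dict

/-- The points of the far zones. -/
structure Ix (M0 a0 : ℝ) where
  z : Fz
  x : E6
  e : ℝ
  is : z.Is M0
  hx : x ∈ z.O
  nq : nq x = 1
  e0 : 0 ≤ e
  e1 : e ≤ 1 / 20
  e2 : e ≤ 5 * M0
  e3 : e ≤ 36 * M0 ^ 2
  par : |z.M - M0| + |z.a - a0| ≤ e

variable {J : Type} (φ : J → Ix M0 a0)

/-- The data, the points, the size and the radius of a family. -/
def DD : Dt (∀ j, (φ j).z.A) := dtP fun j => dt (φ j).z M0 a0
theorem DD_is : (DD φ).Is := dtP_is fun j => dt_is (φ j).is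
def EEv (X : Der (∀ j, (φ j).z.A)) (c : ∀ f, (DD φ).K.c (X f) = X ((DD φ).K.c f)) :
    Ev (∀ j, (φ j).z.A) := evq (fun j => ⟨(φ j).x, (φ j).hx⟩) (lx (DD φ) X) (c_lx (DD_is φ) c)
def ee (j : J) : ℝ := (φ j).e
def rr (j : J) : ℝ := (φ j).x.2.1

theorem DD_dn (i : Fin 6) (j : J) : (DD φ).dn i j = (φ j).z.d M0 (.inl (1, i)) :=
  (dn_ap (fun j => dt (φ j).z M0 a0) j i).trans (dt_dn (φ j).is i)
theorem DD_dm (i : Fin 6) (j : J) : (DD φ).dm i j = (φ j).z.d M0 (.inl (2, i)) :=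
  (dm_ap (fun j => dt (φ j).z M0 a0) j i).trans (dt_dm (φ j).is i)
theorem DD_ds (i : Fin 13) (j : J) : (DD φ).ds i j = (φ j).z.d M0 (.inr i) :=
  ds_ap (fun j => dt (φ j).z M0 a0) j i
theorem DD_β (i : Fin 3) (j : J) : (DD φ).β i j = (dt (φ j).z M0 a0).β i :=
  β_ap (fun j => dt (φ j).z M0 a0) j i

theorem pt (h : |a0| < M0) {X : Der (∀ j, (φ j).z.A)}
    (c : ∀ f, (DD φ).K.c (X f) = X ((DD φ).K.c f)) (X0 : ∀ f, (DD φ).T f = 0 → X f = 0)
    (s0 : ∀ j, ‖fv ((φ j).z.d M0 (.inl (1, 0))) (φ j).x‖ ≤ 1) :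
    (DD φ).Pt (EEv φ X c) (ee φ) (rr φ) := by
  have m : 0 < M0 := (abs_nonneg _).trans_lt h
  have v : ∀ j (t : ℝ), evO ⟨(φ j).x, (φ j).hx⟩ (cst fun _ => (t : ℂ)) = t := fun j t =>
    fv_rs (rs_cst _) (φ j).hx
  have d : ∀ j (t s : ℝ), ‖evO ⟨(φ j).x, (φ j).hx⟩ ((cst fun _ => (t : ℂ)) - cst fun _ => (s : ℂ))‖
      = |t - s| := fun j t s => by
    rw [map_sub, v, v, ← Complex.ofReal_sub, Complex.norm_real, Real.norm_eq_abs]
  have n : ∀ j (t : ℝ), ‖evO ⟨(φ j).x, (φ j).hx⟩ (cst fun _ => (t : ℂ))‖ = |t| := fun j t => by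
    rw [v, Complex.norm_real, Real.norm_eq_abs]
  refine ⟨rfl, X0, rfl, fun i => by fin_cases i <;> rfl, fun i hi j => ?_,
    fun j => (fv_N (φ j).hx).trans (by rw [(φ j).nq]; rfl), fun j => fv_z 1 (φ j).hx,
    ⟨6 * M0, by positivity, fun j => (φ j).is.rad _ (φ j).hx⟩,
    fun j => ⟨(φ j).e0, (φ j).e1.trans (by norm_num)⟩,
    ⟨fun _ => zero_le_one, |a0|, fun j => ((n j a0).trans (mul_one _).symm).le⟩,
    ⟨fun _ => zero_le_one, |M0|, fun j => ((n j M0).trans (mul_one _).symm).le⟩,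
    ⟨fun j => (φ j).e0, 1, fun j => (d j _ _).trans_le ?_⟩,
    ⟨fun j => (φ j).e0, 1, fun j => (d j _ _).trans_le ?_⟩, fun j => (n j _).trans_le ?_,
    fun j => (congrArg (‖fv · (φ j).x‖) (DD_dn φ 0 j)).trans_le (s0 j)⟩
  · refine (congrArg norm (fv_z i (φ j).hx)).trans_le ?_
    have e := (φ j).nq
    have a := Complex.normSq_nonneg (φ j).x.2.2.1
    have b := Complex.normSq_nonneg (φ j).x.2.2.2
    have a' : ‖(φ j).x.2.2.1‖ ≤ 1 := by
      rw [← sq_le_one_iff₀ (norm_nonneg _), ← Complex.normSq_eq_norm_sq]; unfold P354XD.nq at e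
      linarith
    have b' : ‖(φ j).x.2.2.2‖ ≤ 1 := by
      rw [← sq_le_one_iff₀ (norm_nonneg _), ← Complex.normSq_eq_norm_sq]; unfold P354XD.nq at e
      linarith
    fin_cases i
    · exact absurd hi (by decide)
    · exact absurd hi (by decide)
    exacts [a', b', (Complex.norm_conj _).trans_le a', (Complex.norm_conj _).trans_le b']
  · show _ ≤ 1 * (φ j).e
    linarith [(φ j).par, abs_nonneg ((φ j).z.M - M0)]
  · show _ ≤ 1 * (φ j).e
    linarith [(φ j).par, abs_nonneg ((φ j).z.a - a0)]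
  · show _ ≤ (φ j).x.2.1
    linarith [(φ j).par, abs_nonneg ((φ j).z.M - M0), (φ j).e2, (φ j).is.rad _ (φ j).hx,
      abs_sub_abs_le_abs_sub (φ j).z.a a0]

/-- The components x belong to the fields X. -/
def Cp (x : Vec (∀ j, (φ j).z.A)) (X : ∀ j, Der (φ j).z.A) : Prop :=
  ∀ j, pv (hp _) (pO (φ j).z.O M0 (φ j).z.M (φ j).z.a) (fun a => x a j) = (hp _).prj (X j)

theorem cp_T : Cp φ (eT _) fun j => (φ j).z.T := fun j =>
  (congrArg _ (funext (eT_ap j))).trans pv_T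
theorem cp_R : Cp φ (eR _) fun j => (φ j).z.R M0 := fun j =>
  (congrArg _ (funext (eR_ap j))).trans pv_R
theorem cp_O (i : Fin 3) : Cp φ (eO (DD φ).K i) fun j => (φ j).z.Om i := fun j =>
  (congrArg _ (funext (eO_ap (fun j => dt (φ j).z M0 a0) j i))).trans
    (pv_O (cone_is (φ j).is.co) i)
theorem cp_N : Cp φ (DD φ).Nd fun j => (φ j).z.Nd (dt (φ j).z M0 a0).β := fun j =>
  (congrArg _ (funext (Nd_ap (fun j => dt (φ j).z M0 a0) j))).trans
    (pv_N (cone_is (φ j).is.co) _)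

variable {φ} {x y : Vec (∀ j, (φ j).z.A)} {X Y : ∀ j, Der (φ j).z.A} (e1 : Cp φ x X)
  (e2 : Cp φ y Y) (j : J)
include e1 e2

theorem Cp.gg : (DD φ).gg x y j = (φ j).z.gg (X j) (Y j) :=
  (gg_ap (fun j => dt (φ j).z M0 a0) j (fun _ => rfl) fun _ => rfl).trans (dt_gg (e1 j) (e2 j))
theorem Cp.gk : (DD φ).gk x y j = (φ j).z.gk M0 (φ j).z.M (φ j).z.a (X j) (Y j) :=
  (gk_ap (fun j => dt (φ j).z M0 a0) j (fun _ => rfl) fun _ => rfl).trans
    (dt_gk (φ j).is (e1 j) (e2 j))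
theorem Cp.g0 : (DD φ).g0 x y j = (φ j).z.gk M0 M0 a0 (X j) (Y j) :=
  (g0_ap (fun j => dt (φ j).z M0 a0) j (fun _ => rfl) fun _ => rfl).trans
    (dt_g0 (φ j).is (e1 j) (e2 j))

end Vale.Agent.P354TS
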